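import Vale.Agent.P219.CoDefs

namespace Vale.Agent.P219.Co

/-- Geodesic completeness: for all `x` and `v` there is a geodesic `c : ℝ → ℝⁿ`, defined for all
times, with `c 0 = x` and `c' 0 = v` (here `p = c'` and `p' = - Γ(p, p)`). -/
def GeodesicallyComplete {n : ℕ} (M : RiemMetric n) : Prop :=
  ∀ x v : E n, ∃ c p : ℝ → E n, c 0 = x ∧ p 0 = v ∧ ∀ t k,
    HasDerivAt (fun s => c s k) (p t k) t ∧
    HasDerivAt (fun s => p s k) (-∑ i, ∑ j, christoffel M k i j (c t) * p t i * p t j) t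

end Vale.Agent.P219.Co
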