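import Vale.Agent.P219.CH.GeoDefs

/-!
Curvature bridge: the metric of a `RiemMetric` is a metric on the chart `univ`, and the
sectional curvature condition `SecLE` gives the sign condition for `curv`.
-/

open Set Filter Topology
open scoped ContDiff
open Vale.Agent.P255

noncomputable section

namespace Vale.Agent.P219.CH

theorem isMetricOn {n : ℕ} (M : RiemMetric n) : IsMetricOn M.g univ where
  isOpen := isOpen_univ
  smooth := M.smooth.contDiffOn
  symm u _ v w := M.symm u v w
  pos u _ v hv := M.pos u v hv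

/-- The Christoffel tensor is characterised by the Koszul formula. -/
theorem chris_eq_of_koszul {n : ℕ} (M : RiemMetric n) {Γ : E n → E n →L[ℝ] E n →L[ℝ] E n}
    (hK : ∀ x u v w, 2 * M.g x (Γ x u v) w =
      fderiv ℝ M.g x u v w + fderiv ℝ M.g x v u w - fderiv ℝ M.g x w u v) (x u v : E n) :
    chris M.g x u v = Γ x u v := by
  have h := isMetricOn M
  apply h.ext_of (mem_univ x)
  intro z
  rw [h.chris_spec (mem_univ x), ← hK x u v z]
  ring

theorem fderiv_clm2 {V : Type} [NormedAddCommGroup V] [NormedSpace ℝ V]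
    {Γ : V → V →L[ℝ] V →L[ℝ] V} {x : V} (hΓ : DifferentiableAt ℝ Γ x) (u v w : V) :
    fderiv ℝ (fun p => Γ p v w) x u = fderiv ℝ Γ x u v w := by
  have h2 := (hΓ.hasFDerivAt.clm_apply (hasFDerivAt_const v x)).clm_apply (hasFDerivAt_const w x)
  rw [h2.fderiv]
  simp

theorem sec_nonpos {n : ℕ} (M : RiemMetric n) (hs : SecLE M 0) (x u v : E n) :
    M.g x (curv M.g x u v v) u ≤ 0 := by
  obtain ⟨Γ, hΓ, hK, hc⟩ := hs
  have hd : DifferentiableAt ℝ Γ x := hΓ.differentiable (by simp) x
  have hch : ∀ y a b, chris M.g y a b = Γ y a b := chris_eq_of_koszul M hK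
  have e1 : ∀ a b : E n, (fun p => chris M.g p a b) = fun p => Γ p a b := fun a b => by
    funext p; exact hch p a b
  have h := hc x u v
  rw [zero_mul] at h
  unfold curv
  rw [e1, e1, fderiv_clm2 hd, fderiv_clm2 hd]
  simp only [hch]
  exact h

end Vale.Agent.P219.CH
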