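import Mathlib

/-!
The polynomial inequalities behind the certificate in dimension 6.
-/

namespace Vale.Agent.P219.CH

/-- (PI) in dimension 6, in the variables `l`, `S = a + b`, `p = a b`. -/
theorem pi6_aux {l S p : ℝ} (hl : 0 < l) (hS : 0 ≤ S) (hp0 : 0 ≤ p)
    (hp : 4 * p ≤ S ^ 2) :
    0 ≤ 17 * l ^ 5 - 25 * S * l ^ 4 + 10 * (3 + S ^ 2 - 2 * p) * l ^ 3 - 360 * p * l +
      p * S * (240 + 48 * (S ^ 2 - 3 * p)) := by
  have h0 : 0 ≤ 17 * l ^ 2 - 25 * S * l + 30 + 10 * S ^ 2 := by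
    nlinarith [sq_nonneg (17 * l - 25 / 2 * S), sq_nonneg S]
  have h1 : 0 ≤ (l - S) ^ 2 * (17 * l ^ 3 + 9 * S * l ^ 2 + (30 + 6 * S ^ 2) * l + 60 * S +
      3 * S ^ 3) := by positivity
  rcases hS.eq_or_lt with h | h
  · have hp' : p = 0 := by
      rw [← h] at hp; nlinarith
    subst hp'
    rw [← h]
    have : 0 ≤ 17 * l ^ 5 + 30 * l ^ 3 := by positivity
    nlinarith [this]
  · have hS2 : 0 < S ^ 2 := by positivity
    have h2 : 0 ≤ (S ^ 2 - 4 * p) * (l ^ 3 * (17 * l ^ 2 - 25 * S * l + 30 + 10 * S ^ 2)) :=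
      mul_nonneg (by linarith) (mul_nonneg (by positivity) h0)
    have h3 : 0 ≤ 4 * p * ((l - S) ^ 2 * (17 * l ^ 3 + 9 * S * l ^ 2 + (30 + 6 * S ^ 2) * l +
      60 * S + 3 * S ^ 3)) := mul_nonneg (by linarith) h1
    have h4 : 0 ≤ 36 * S * p * (S ^ 2 - 4 * p) * S ^ 2 :=
      mul_nonneg (mul_nonneg (by positivity) (by linarith)) hS2.le
    have h5 : 0 ≤ S ^ 2 * (17 * l ^ 5 - 25 * S * l ^ 4 + 10 * (3 + S ^ 2 - 2 * p) * l ^ 3 -
        360 * p * l + p * S * (240 + 48 * (S ^ 2 - 3 * p))) := by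
      have : S ^ 2 * (17 * l ^ 5 - 25 * S * l ^ 4 + 10 * (3 + S ^ 2 - 2 * p) * l ^ 3 -
        360 * p * l + p * S * (240 + 48 * (S ^ 2 - 3 * p))) =
        (S ^ 2 - 4 * p) * (l ^ 3 * (17 * l ^ 2 - 25 * S * l + 30 + 10 * S ^ 2)) +
        4 * p * ((l - S) ^ 2 * (17 * l ^ 3 + 9 * S * l ^ 2 + (30 + 6 * S ^ 2) * l +
          60 * S + 3 * S ^ 3)) + 36 * S * p * (S ^ 2 - 4 * p) * S ^ 2 := by ring
      rw [this]; positivity
    exact nonneg_of_mul_nonneg_right (by linarith [h5]) hS2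

/-- (PI) in dimension 6. -/
theorem pi6 {l a b : ℝ} (hl : 0 < l) (ha : 0 ≤ a) (hb : 0 ≤ b) :
    0 ≤ 17 * l ^ 5 - 25 * (a + b) * l ^ 4 + 10 * (3 + a ^ 2 + b ^ 2) * l ^ 3 -
      360 * (a * b) * l + a * b * (a + b) * (240 + 48 * (a ^ 2 - a * b + b ^ 2)) := by
  have h := pi6_aux (l := l) (S := a + b) (p := a * b) hl (by positivity) (by positivity)
    (by nlinarith [sq_nonneg (a - b)])
  have e : 17 * l ^ 5 - 25 * (a + b) * l ^ 4 + 10 * (3 + a ^ 2 + b ^ 2) * l ^ 3 -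
      360 * (a * b) * l + a * b * (a + b) * (240 + 48 * (a ^ 2 - a * b + b ^ 2)) =
      17 * l ^ 5 - 25 * (a + b) * l ^ 4 + 10 * (3 + (a + b) ^ 2 - 2 * (a * b)) * l ^ 3 -
      360 * (a * b) * l + a * b * (a + b) * (240 + 48 * ((a + b) ^ 2 - 3 * (a * b))) := by ring
  rw [e]; exact h

/-- The kernel in dimension 6 is nonnegative. -/
theorem k6 {r a b : ℝ} (hr : 0 < r) (ha : |a| ≤ 1) (hb : |b| ≤ 1) :
    0 ≤ 17 * r ^ 2 + 10 * (3 + a ^ 2 + b ^ 2) - 25 * (a + b) * r := by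
  have h1 : a ^ 2 ≤ 1 := by nlinarith [sq_abs a, abs_nonneg a]
  have h2 : b ^ 2 ≤ 1 := by nlinarith [sq_abs b, abs_nonneg b]
  nlinarith [sq_nonneg (17 * r - 25 / 2 * (a + b)), sq_nonneg (a - b)]

end Vale.Agent.P219.CH
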