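import Vale.Agent.P219.CH.CoComplete
import Vale.Agent.P219.CH.Bridge
import Vale.Agent.P219.CoCurv

/-!
Bridge from the coordinate definitions: geodesic completeness, curvature, frames.
-/

open Set Filter Topology Matrix
open scoped ContDiff
open Vale.Agent.P255

noncomputable section

namespace Vale.Agent.P219.Co

variable {n : ℕ}

theorem chris_old (M : RiemMetric n) (x u v : E n) :
    chris (old M).g x u v = oldGam M x u v :=
  CH.chris_eq_of_koszul (old M) (koszul_old M) x u v

theorem hasDerivAt_eucl {f : ℝ → E n} {f' : E n} {t : ℝ}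
    (h : ∀ k, HasDerivAt (fun s => f s k) (f' k) t) : HasDerivAt f f' t := by
  have h1 : HasDerivAt (fun s => (WithLp.ofLp (f s) : Fin n → ℝ)) (WithLp.ofLp f') t :=
    hasDerivAt_pi.2 h
  have h2 := ((PiLp.continuousLinearEquiv 2 ℝ (fun _ : Fin n => ℝ)).symm.toContinuousLinearMap
    |>.hasFDerivAt (x := WithLp.ofLp (f t))).comp_hasDerivAt t h1
  exact h2

/-- Geodesic completeness in coordinates gives completeness of the geodesic vector field. -/
theorem geoComplete_old {M : RiemMetric n} (hM : GeodesicallyComplete M) :
    CH.GeoComplete (old M).g := by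
  intro z
  obtain ⟨c, p, hc0, hp0, hcp⟩ := hM z.1 z.2
  refine ⟨fun t => (c t, p t), ?_, fun t => ?_⟩
  · exact Prod.ext hc0 hp0
  · have h1 : HasDerivAt c (p t) t := hasDerivAt_eucl fun k => (hcp t k).1
    have h2 : HasDerivAt p (- chris (old M).g (c t) (p t) (p t)) t := by
      refine hasDerivAt_eucl fun k => ?_
      refine (hcp t k).2.congr_deriv ?_
      rw [chris_old, PiLp.neg_apply, oldGam_apply]
      congr 1
      refine Finset.sum_congr rfl fun i _ => Finset.sum_congr rfl fun j _ => ?_
      ring
    exact h1.prodMk h2

/-- Triangular frames of the invariant metric give triangular frames in coordinates. -/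
theorem frame_of_old {M : RiemMetric n} {e : Fin n → E n → E n}
    (he : Vale.Agent.P219.TriangularFrame (old M) e) :
    TriangularFrame M (fun a x i => e a x i) where
  smooth a i := (contDiff_euclidean.1 (he.smooth a)) i
  orthonormal x a b := by
    have h := he.orthonormal x a b
    rw [old_apply] at h
    exact h
  triangular a x i hi := he.triangular a x i hi
  positive a x := he.positive a x

/-- `Sec ≤ κ` in coordinates gives `Sec ≤ κ` for the invariant metric (frames exist, CH/Frame.lean). -/
theorem secLE_old_of_frame {M : RiemMetric n}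
    (hfr : ∃ e, Vale.Agent.P219.TriangularFrame (old M) e) {κ : ℝ} (h : SecLE M κ) :
    Vale.Agent.P219.SecLE (old M) κ := by
  obtain ⟨e, he⟩ := hfr
  exact secLE_old (frame_of_old he) h

end Vale.Agent.P219.Co
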