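import Vale.Agent.P219.CH.ToGeo
import Vale.Agent.P219.CH.CoBridgeGeo
import Vale.Agent.P219.CoMain

/-!
The isoperimetric inequality from a certificate, in coordinates.
-/

namespace Vale.Agent.P219.Co

/-- The isoperimetric inequality from a certificate, coordinate definitions. -/
theorem isop_of_cert {n : ℕ} (hn : 2 ≤ n) (C : TP.Cert n) (M : RiemMetric n)
    (hc : GeodesicallyComplete M) (hs : SecLE M 0) : IsoperimetricIneq M 0 := by
  obtain ⟨e, he⟩ := CH.exists_triangularFrame (old M)
  have h := CH.isop_of_cert hn C (old M) (geoComplete_old hc)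
    (secLE_old_of_frame ⟨e, he⟩ hs)
  exact isop_old (frame_of_old he) h

end Vale.Agent.P219.Co
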