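import Vale.Agent.P219.CH.GeoDefs

/-!
Elementary properties of the geodesic flow.
-/

open Set Filter Topology
open scoped ContDiff
open Vale.Agent.P255

noncomputable section

namespace Vale.Agent.P219.CH

variable {V : Type} [NormedAddCommGroup V] [NormedSpace ℝ V]
variable {G : V → V →L[ℝ] V →L[ℝ] ℝ}

theorem hasDerivAt_fst' {f : ℝ → V × V} {f' : V × V} {t : ℝ} (h : HasDerivAt f f' t) :
    HasDerivAt (fun s => (f s).1) f'.1 t :=
  (ContinuousLinearMap.fst ℝ V V).hasFDerivAt.comp_hasDerivAt t h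

theorem hasDerivAt_snd' {f : ℝ → V × V} {f' : V × V} {t : ℝ} (h : HasDerivAt f f' t) :
    HasDerivAt (fun s => (f s).2) f'.2 t :=
  (ContinuousLinearMap.snd ℝ V V).hasFDerivAt.comp_hasDerivAt t h

namespace GFlow

variable (F : GFlow G)

theorem add (s t : ℝ) (z : V × V) : F.Φ (s + t) z = F.Φ t (F.Φ s z) := by
  have h := F.uniq (fun r => F.Φ (s + r) z) (fun r => by
    have h1 := F.eqn (s + r) z
    exact h1.comp_const_add s r) t
  simpa using h

variable [FiniteDimensional ℝ V]

omit [FiniteDimensional ℝ V] in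
theorem smul_aux (t c : ℝ) (x v : V) :
    F.Φ t (x, c • v) = ((F.Φ (c * t) (x, v)).1, c • (F.Φ (c * t) (x, v)).2) := by
  have h := F.uniq (fun r => ((F.Φ (c * r) (x, v)).1, c • (F.Φ (c * r) (x, v)).2)) (fun r => by
    have h1 : HasDerivAt (fun r => F.Φ (c * r) (x, v)) (c • geoField G (F.Φ (c * r) (x, v))) r := by
      have h2 : HasDerivAt (fun r : ℝ => c * r) c r := by
        simpa using (hasDerivAt_id r).const_mul c
      exact (F.eqn (c * r) (x, v)).scomp r h2
    have h3 : HasDerivAt (fun r => (F.Φ (c * r) (x, v)).1)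
        (c • (F.Φ (c * r) (x, v)).2) r := hasDerivAt_fst' h1
    have h4 : HasDerivAt (fun r => (F.Φ (c * r) (x, v)).2)
        (c • (- chris G (F.Φ (c * r) (x, v)).1 (F.Φ (c * r) (x, v)).2
          (F.Φ (c * r) (x, v)).2)) r := hasDerivAt_snd' h1
    have h5 := h3.prodMk (h4.const_smul c)
    refine h5.congr_deriv ?_
    simp only [geoField, chris_smul_left, chris_smul_right, smul_neg]) t
  rw [h]
  simp [F.zero]

theorem smul (h : IsMetricOn G univ) (t c : ℝ) (x v : V) :
    F.Φ t (x, c • v) = ((F.Φ (c * t) (x, v)).1, c • (F.Φ (c * t) (x, v)).2) :=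
  F.smul_aux t c x v

theorem fst_eq (h : IsMetricOn G univ) (t : ℝ) (x v : V) : (F.Φ t (x, v)).1 = F.ex x (t • v) := by
  rw [ex, F.smul h, mul_one]

theorem ex_zero (h : IsMetricOn G univ) (x : V) : F.ex x 0 = x := by
  have h1 := F.fst_eq h 0 x 0
  rw [F.zero, zero_smul] at h1
  exact h1.symm

omit [FiniteDimensional ℝ V] in
theorem ex_smooth : ContDiff ℝ ∞ fun q : V × V => F.ex q.1 q.2 := by
  have h1 : ContDiff ℝ ∞ fun q : V × V => ((1 : ℝ), q) := contDiff_const.prodMk contDiff_id
  exact contDiff_fst.comp (F.smooth.comp h1)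

omit [FiniteDimensional ℝ V] in
theorem vel_smooth : ContDiff ℝ ∞ fun q : ℝ × V × V => F.vel q.1 q.2.1 q.2.2 :=
  contDiff_snd.comp F.smooth

/-- the velocity of `t ↦ ex x (t v)` -/
theorem fderiv_ray (h : IsMetricOn G univ) (x v : V) (t : ℝ) :
    fderiv ℝ (F.ex x) (t • v) v = F.vel t x v := by
  have h1 : ContDiff ℝ ∞ (F.ex x) := by
    have h2 : ContDiff ℝ ∞ fun w : V => (x, w) := contDiff_const.prodMk contDiff_id
    exact F.ex_smooth.comp h2
  have h3 : HasFDerivAt (F.ex x) (fderiv ℝ (F.ex x) (t • v)) (t • v) :=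
    (h1.differentiable (by simp)).differentiableAt.hasFDerivAt
  have h4 : HasDerivAt (fun s : ℝ => s • v) v t := by
    simpa using (hasDerivAt_id t).smul_const v
  have h5 : HasDerivAt (fun s : ℝ => F.ex x (s • v)) (fderiv ℝ (F.ex x) (t • v) v) t := by
    exact HasFDerivAt.comp_hasDerivAt (f := fun s : ℝ => s • v) t h3 h4
  have h6 : HasDerivAt (fun s : ℝ => F.ex x (s • v)) (F.vel t x v) t := by
    have h7 : (fun s : ℝ => F.ex x (s • v)) = fun s => (F.Φ s (x, v)).1 :=
      funext fun s => (F.fst_eq h s x v).symm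
    rw [h7]
    exact hasDerivAt_fst' (F.eqn t (x, v))
  exact h5.unique h6

theorem flow_eq (h : IsMetricOn G univ) (s : ℝ) (x v : V) :
    F.Φ s (x, v) = (F.ex x (s • v), F.vel s x v) := by
  rw [← F.fst_eq h]
  rfl

theorem ex_add (h : IsMetricOn G univ) (s t : ℝ) (x v : V) :
    F.ex x ((s + t) • v) = F.ex (F.ex x (s • v)) (t • F.vel s x v) := by
  rw [← F.fst_eq h, F.add, F.flow_eq h s x v, F.fst_eq h]

theorem vel_add (h : IsMetricOn G univ) (s t : ℝ) (x v : V) :
    F.vel (s + t) x v = F.vel t (F.ex x (s • v)) (F.vel s x v) := by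
  rw [vel, F.add, F.flow_eq h s x v]
  rfl

theorem vel_smul (h : IsMetricOn G univ) (t c : ℝ) (x v : V) :
    F.vel t x (c • v) = c • F.vel (c * t) x v := by
  rw [vel, F.smul h]
  rfl

/-- conservation of energy -/
theorem energy (h : IsMetricOn G univ) (t : ℝ) (x v : V) :
    G (F.ex x (t • v)) (F.vel t x v) (F.vel t x v) = G x v v := by
  set c : ℝ → V := fun s => (F.Φ s (x, v)).1 with hc
  have hd : ∀ s, HasDerivAt c (F.vel s x v) s := fun s => hasDerivAt_fst' (F.eqn s (x, v))
  have hdc : deriv c = fun s => F.vel s x v := funext fun s => (hd s).deriv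
  have hdd : ∀ s, HasDerivAt (deriv c)
      (- chris G (c s) (F.vel s x v) (F.vel s x v)) s := fun s => by
    rw [hdc]
    exact hasDerivAt_snd' (F.eqn s (x, v))
  have hen : ∀ s, HasDerivAt (fun s => G (c s) (deriv c s) (deriv c s)) 0 s := fun s => by
    refine h.hasDerivAt_speed (mem_univ _) (hd s).differentiableAt (hdd s).differentiableAt ?_
    rw [(hdd s).deriv, hdc]
  have hconst := is_const_of_deriv_eq_zero (fun s => (hen s).differentiableAt)
    (fun s => (hen s).deriv) t 0
  have h0 : F.Φ 0 (x, v) = (x, v) := F.zero _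
  have h1 : F.vel 0 x v = v := by rw [vel, h0]
  have h2 : c 0 = x := by rw [hc]; simp only [h0]
  have h3 : c t = F.ex x (t • v) := F.fst_eq h t x v
  simp only [hdc] at hconst
  rw [h2, h3, h1] at hconst
  exact hconst

end GFlow

end Vale.Agent.P219.CH
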