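import Vale.Agent.P219.Defs

/-!
Existence of a smooth orthonormal triangular frame (Gram-Schmidt from the last vector downwards).
-/

open scoped ContDiff

noncomputable section

namespace Vale.Agent.P219.CH

/-- a triangular frame defined for the last `k` indices -/
structure PartFrame {n : ℕ} (M : RiemMetric n) (k : ℕ) (e : Fin n → E n → E n) : Prop where
  smooth : ∀ a : Fin n, n ≤ a + k → ContDiff ℝ ∞ (e a)
  orthonormal : ∀ x (a b : Fin n), n ≤ a + k → n ≤ b + k →
    M.g x (e a x) (e b x) = if a = b then 1 else 0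
  triangular : ∀ a : Fin n, n ≤ a + k → ∀ x i, i < a → e a x i = 0
  positive : ∀ a : Fin n, n ≤ a + k → ∀ x, 0 < e a x a

theorem frame_basisVec_apply {n : ℕ} (i j : Fin n) :
    (basisVec i : E n) j = if j = i then 1 else 0 := by
  simp [basisVec]

theorem PartFrame.step {n : ℕ} {M : RiemMetric n} {k : ℕ} {e : Fin n → E n → E n}
    (h : PartFrame M k e) (hk : k < n) : ∃ e', PartFrame M (k + 1) e' := by
  obtain ⟨a0, ha0⟩ : ∃ a0 : Fin n, (a0 : ℕ) + k + 1 = n := ⟨⟨n - k - 1, by omega⟩, by simp; omega⟩
  set s : Finset (Fin n) := Finset.univ.filter (fun b : Fin n => a0 < b) with hs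
  have hsk : ∀ b ∈ s, n ≤ (b : ℕ) + k := by
    intro b hb
    have : a0 < b := (Finset.mem_filter.1 hb).2
    have : (a0 : ℕ) < b := this
    omega
  have hks : ∀ b : Fin n, n ≤ (b : ℕ) + k → b ∈ s := by
    intro b hb
    refine Finset.mem_filter.2 ⟨Finset.mem_univ _, ?_⟩
    change (a0 : ℕ) < b
    omega
  set u : E n → E n := fun x =>
    basisVec a0 - ∑ b ∈ s, M.g x (basisVec a0) (e b x) • e b x with hu
  have hus : ContDiff ℝ ∞ u := by
    refine contDiff_const.sub (ContDiff.sum fun b hb => ?_)
    exact ((M.smooth.clm_apply contDiff_const).clm_apply (h.smooth b (hsk b hb))).smul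
      (h.smooth b (hsk b hb))
  have hucomp : ∀ x i, u x i = (basisVec a0 : E n) i -
      ∑ b ∈ s, M.g x (basisVec a0) (e b x) * e b x i := by
    intro x i
    have h1 : (∑ b ∈ s, M.g x (basisVec a0) (e b x) • e b x : E n) i =
        ∑ b ∈ s, M.g x (basisVec a0) (e b x) * e b x i :=
      map_sum (EuclideanSpace.proj i : E n →L[ℝ] ℝ)
        (fun b => M.g x (basisVec a0) (e b x) • e b x) s
    simp only [hu, PiLp.sub_apply]
    rw [h1]
  have hu0 : ∀ x, u x a0 = 1 := by
    intro x
    rw [hucomp, frame_basisVec_apply, if_pos rfl, Finset.sum_eq_zero, sub_zero]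
    intro b hb
    rw [h.triangular b (hsk b hb) x a0 (Finset.mem_filter.1 hb).2, mul_zero]
  have hutri : ∀ x i, i < a0 → u x i = 0 := by
    intro x i hi
    rw [hucomp, frame_basisVec_apply, if_neg hi.ne, Finset.sum_eq_zero, sub_zero]
    intro b hb
    rw [h.triangular b (hsk b hb) x i (hi.trans (Finset.mem_filter.1 hb).2), mul_zero]
  have hune : ∀ x, u x ≠ 0 := by
    intro x h0
    have := hu0 x
    rw [h0] at this
    simp at this
  have hpos : ∀ x, 0 < M.g x (u x) (u x) := fun x => M.pos x _ (hune x)
  have horth : ∀ x, ∀ b ∈ s, M.g x (u x) (e b x) = 0 := by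
    intro x b hb
    simp only [hu, map_sub, map_sum, map_smul, sub_apply,
      sum_apply, smul_apply, smul_eq_mul]
    rw [Finset.sum_eq_single b]
    · rw [h.orthonormal x b b (hsk b hb) (hsk b hb), if_pos rfl, mul_one, sub_self]
    · intro c hc hcb
      rw [h.orthonormal x c b (hsk c hc) (hsk b hb), if_neg hcb, mul_zero]
    · intro hb'
      exact absurd hb hb'
  set w : E n → E n := fun x => (√(M.g x (u x) (u x)))⁻¹ • u x with hw
  have hws : ContDiff ℝ ∞ w := by
    have h1 : ContDiff ℝ ∞ (fun x => M.g x (u x) (u x)) :=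
      (M.smooth.clm_apply hus).clm_apply hus
    exact ((h1.sqrt (fun x => (hpos x).ne')).inv (fun x => (Real.sqrt_pos.2 (hpos x)).ne')).smul hus
  have hww : ∀ x, M.g x (w x) (w x) = 1 := by
    intro x
    simp only [hw, map_smul, smul_apply, smul_eq_mul]
    have h1 := Real.mul_self_sqrt (hpos x).le
    have h2 := (Real.sqrt_pos.2 (hpos x)).ne'
    field_simp
    nlinarith
  have hwe : ∀ x, ∀ b ∈ s, M.g x (w x) (e b x) = 0 := by
    intro x b hb
    simp only [hw, map_smul, smul_apply, smul_eq_mul]
    rw [horth x b hb, mul_zero]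
  have ha0s : a0 ∉ s := by simp [hs]
  have hcase : ∀ a : Fin n, n ≤ (a : ℕ) + (k + 1) → a = a0 ∨ (a ≠ a0 ∧ a ∈ s) := by
    intro a ha
    by_cases haa : a = a0
    · exact Or.inl haa
    · refine Or.inr ⟨haa, hks a ?_⟩
      have : (a : ℕ) ≠ a0 := fun h => haa (Fin.ext h)
      omega
  refine ⟨Function.update e a0 w, ?_, ?_, ?_, ?_⟩
  · intro a ha
    rcases hcase a ha with rfl | ⟨h1, h2⟩
    · rw [Function.update_self]; exact hws
    · rw [Function.update_of_ne h1]; exact h.smooth a (hsk a h2)
  · intro x a b ha hb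
    rcases hcase a ha with rfl | ⟨h1, h2⟩
    · rcases hcase b hb with rfl | ⟨h3, h4⟩
      · rw [Function.update_self, if_pos rfl]; exact hww x
      · rw [Function.update_self, Function.update_of_ne h3, if_neg h3.symm]
        exact hwe x b h4
    · rcases hcase b hb with rfl | ⟨h3, h4⟩
      · rw [Function.update_self, Function.update_of_ne h1, if_neg h1, M.symm]
        exact hwe x a h2
      · rw [Function.update_of_ne h3, Function.update_of_ne h1]
        exact h.orthonormal x a b (hsk a h2) (hsk b h4)
  · intro a ha x i hi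
    rcases hcase a ha with rfl | ⟨h1, h2⟩
    · rw [Function.update_self]
      simp only [hw, PiLp.smul_apply, smul_eq_mul]
      rw [hutri x i hi, mul_zero]
    · rw [Function.update_of_ne h1]
      exact h.triangular a (hsk a h2) x i hi
  · intro a ha x
    rcases hcase a ha with rfl | ⟨h1, h2⟩
    · rw [Function.update_self]
      simp only [hw, PiLp.smul_apply, smul_eq_mul]
      rw [hu0 x, mul_one]
      exact inv_pos.2 (Real.sqrt_pos.2 (hpos x))
    · rw [Function.update_of_ne h1]
      exact h.positive a (hsk a h2) x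

theorem exists_partFrame {n : ℕ} (M : RiemMetric n) :
    ∀ k, k ≤ n → ∃ e, PartFrame M k e := by
  intro k
  induction k with
  | zero =>
    intro _
    refine ⟨fun _ _ => 0, ?_, ?_, ?_, ?_⟩
    · intro a ha; have := a.2; omega
    · intro x a b ha; have := a.2; omega
    · intro a ha; have := a.2; omega
    · intro a ha; have := a.2; omega
  | succ k ih =>
    intro hk
    obtain ⟨e, he⟩ := ih (by omega)
    exact he.step (by omega)

/-- every metric on `ℝⁿ` has a smooth orthonormal triangular frame -/
theorem exists_triangularFrame {n : ℕ} (M : RiemMetric n) : ∃ e, TriangularFrame M e := by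
  obtain ⟨e, he⟩ := exists_partFrame M n le_rfl
  exact ⟨e, fun a => he.smooth a (by omega), fun x a b => he.orthonormal x a b (by omega) (by omega),
    fun a x i hi => he.triangular a (by omega) x i hi, fun a x => he.positive a (by omega) x⟩

end Vale.Agent.P219.CH
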