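import Vale.Agent.P219.Frames

/-!
The isometry `E n → (E n, g_x)` defined by a triangular orthonormal frame, and its inverse.
-/

open Matrix
open scoped ContDiff

noncomputable section

namespace Vale.Agent.P219.CH

variable {n : ℕ}

/-- the linear isometry `(ℝⁿ, eucl) → (ℝⁿ, g_x)` of the frame -/
def frA (e : Fin n → E n → E n) (x : E n) : E n →L[ℝ] E n :=
  ∑ a, (EuclideanSpace.proj a : E n →L[ℝ] ℝ).smulRight (e a x)

/-- the inverse isometry -/
def frB (M : RiemMetric n) (e : Fin n → E n → E n) (x : E n) : E n →L[ℝ] E n :=
  ∑ a, (M.g x (e a x)).smulRight (basisVec a)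

variable {M : RiemMetric n} {e : Fin n → E n → E n}

theorem frA_apply (x u : E n) : frA e x u = ∑ a, u a • e a x := by
  simp [frA, _root_.sum_apply]

theorem frB_apply (x w : E n) (a : Fin n) : frB M e x w a = M.g x (e a x) w := by
  have : frB M e x w = ∑ b, M.g x (e b x) w • (basisVec b : E n) := by
    simp [frB, _root_.sum_apply]
  rw [this]
  have h := E_expand (n := n) (WithLp.toLp 2 fun b => M.g x (e b x) w)
  simp only at h
  rw [← h]

theorem g_frA (he : TriangularFrame M e) (x u v : E n) :
    M.g x (frA e x u) (frA e x v) = inner ℝ u v := by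
  rw [frA_apply, frA_apply, map_sum]
  simp only [_root_.sum_apply, map_smul, _root_.smul_apply, map_sum, he.orthonormal, smul_eq_mul]
  simp [PiLp.inner_apply, mul_comm]

theorem frA_frB (he : TriangularFrame M e) (x w : E n) : frA e x (frB M e x w) = w := by
  rw [frA_apply]
  simp only [frB_apply]
  conv_rhs => rw [frame_complete he x w]
  simp only [M.symm x w]

theorem frB_frA (he : TriangularFrame M e) (x u : E n) : frB M e x (frA e x u) = u := by
  ext a
  rw [frB_apply, frA_apply]
  simp [map_sum, he.orthonormal]

theorem inner_frB (he : TriangularFrame M e) (x v w : E n) :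
    inner ℝ (frB M e x v) (frB M e x w) = M.g x v w := by
  rw [← g_frA he x, frA_frB he, frA_frB he]

theorem norm_frB_sq (he : TriangularFrame M e) (x w : E n) : ‖frB M e x w‖ ^ 2 = M.g x w w := by
  rw [← real_inner_self_eq_norm_sq, inner_frB he]

theorem g_frA_self (he : TriangularFrame M e) (x u : E n) :
    M.g x (frA e x u) (frA e x u) = ‖u‖ ^ 2 := by
  rw [g_frA he, real_inner_self_eq_norm_sq]

theorem frA_smooth (he : TriangularFrame M e) : ContDiff ℝ ∞ (frA e) := by
  unfold frA
  refine ContDiff.sum fun a _ => ?_
  exact ContDiff.smulRight contDiff_const (he.smooth a)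

theorem frB_smooth (he : TriangularFrame M e) : ContDiff ℝ ∞ (frB M e) := by
  unfold frB
  refine ContDiff.sum fun a _ => ?_
  exact ContDiff.smulRight (M.smooth.clm_apply (he.smooth a)) contDiff_const

theorem frA_det (he : TriangularFrame M e) (x : E n) :
    volDensity M x * |(frA e x).det| = 1 := by
  have h1 : (frA e x).det = ∏ a, e a x a := by
    rw [← frame_det he x, ContinuousLinearMap.det,
      ← LinearMap.det_toMatrix (EuclideanSpace.basisFun (Fin n) ℝ).toBasis, ← det_transpose]
    congr 1
    ext a i
    rw [transpose_apply, LinearMap.toMatrix_apply]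
    simp only [OrthonormalBasis.coe_toBasis, EuclideanSpace.basisFun_apply,
      ContinuousLinearMap.coe_coe, frA_apply, frameMat, of_apply]
    simp [OrthonormalBasis.coe_toBasis_repr_apply]
  have h2 : 0 < ∏ a, e a x a := Finset.prod_pos fun a _ => he.positive a x
  rw [h1, abs_of_pos h2, volDensity_eq he, Finset.prod_inv_distrib]
  field_simp

end Vale.Agent.P219.CH
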