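import Vale.Agent.P255.Coord
import Vale.Agent.P219.Defs

/-!
Geodesic flow of a metric `G` on a finite dimensional space `V` (one global chart).
-/

open Set Filter Topology
open scoped ContDiff
open Vale.Agent.P255

noncomputable section

namespace Vale.Agent.P219.CH

variable {V : Type} [NormedAddCommGroup V] [NormedSpace ℝ V]

/-- geodesic completeness: the geodesic vector field has a global integral curve through every
point -/
def GeoComplete (G : V → V →L[ℝ] V →L[ℝ] ℝ) : Prop :=
  ∀ z : V × V, ∃ c : ℝ → V × V, c 0 = z ∧ ∀ t, HasDerivAt c (geoField G (c t)) t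

/-- the global geodesic flow -/
structure GFlow (G : V → V →L[ℝ] V →L[ℝ] ℝ) where
  /-- the flow -/
  Φ : ℝ → V × V → V × V
  smooth : ContDiff ℝ ∞ fun q : ℝ × (V × V) => Φ q.1 q.2
  zero : ∀ z, Φ 0 z = z
  eqn : ∀ t z, HasDerivAt (fun s => Φ s z) (geoField G (Φ t z)) t
  uniq : ∀ c : ℝ → V × V, (∀ t, HasDerivAt c (geoField G (c t)) t) → ∀ t, c t = Φ t (c 0)

namespace GFlow

variable {G : V → V →L[ℝ] V →L[ℝ] ℝ} (F : GFlow G)

/-- the exponential map -/
def ex (x v : V) : V := (F.Φ 1 (x, v)).1

/-- the velocity of the geodesic with initial velocity `v` at time `t` -/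
def vel (t : ℝ) (x v : V) : V := (F.Φ t (x, v)).2

end GFlow

end Vale.Agent.P219.CH
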