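import Vale.Agent.P219.CH.FlowProp
import Vale.Agent.P255.PathLift

/-!
Cartan-Hadamard: an expanding local diffeomorphism of a finite dimensional space is bijective;
the smooth logarithm.
-/

open Set Filter Topology
open scoped ContDiff unitInterval
open Vale.Agent.P255

noncomputable section

namespace Vale.Agent.P219.CH

variable {V : Type} [NormedAddCommGroup V] [NormedSpace ℝ V] [FiniteDimensional ℝ V]
variable {G : V → V →L[ℝ] V →L[ℝ] ℝ}

/-- the injective differential as an equivalence -/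
theorem hadamard_exists_equiv {W : Type} [NormedAddCommGroup W] [NormedSpace ℝ W]
    [FiniteDimensional ℝ W] (A : W →L[ℝ] W) (hinj : ∀ z, A z = 0 → z = 0) :
    ∃ L : W ≃L[ℝ] W, (L : W →L[ℝ] W) = A := by
  have hinj' : Function.Injective (A : W →ₗ[ℝ] W) := by
    rw [← LinearMap.ker_eq_bot, LinearMap.ker_eq_bot']
    exact hinj
  refine ⟨(LinearEquiv.ofInjectiveEndo (A : W →ₗ[ℝ] W) hinj').toContinuousLinearEquiv, ?_⟩
  ext z; rfl

theorem hadamard_isLocalHomeomorph {W : Type} [NormedAddCommGroup W] [NormedSpace ℝ W]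
    [FiniteDimensional ℝ W] {f : W → W} (hf : ContDiff ℝ ∞ f)
    (hinj : ∀ v z, fderiv ℝ f v z = 0 → z = 0) : IsLocalHomeomorph f := by
  have : CompleteSpace W := FiniteDimensional.complete ℝ W
  apply IsLocalHomeomorph.mk
  intro v
  obtain ⟨L, hL⟩ := hadamard_exists_equiv (fderiv ℝ f v) (hinj v)
  have hFd : HasFDerivAt f (L : W →L[ℝ] W) v := by
    rw [hL]; exact (hf.differentiable (by simp) v).hasFDerivAt
  have hcd : ContDiffAt ℝ 1 f v := (hf.of_le (by exact_mod_cast le_top)).contDiffAt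
  exact ⟨hcd.toOpenPartialHomeomorph f hFd one_ne_zero,
    hcd.mem_toOpenPartialHomeomorph_source hFd one_ne_zero, fun z _ => rfl⟩

/-- derivative of a local lift through a map with injective derivative -/
theorem hadamard_hasDerivAt_lift {F : V → V} {c x : ℝ → V} {t : ℝ} {w : V}
    (hF : ContDiffAt ℝ 1 F (c t)) (hinj : ∀ z, fderiv ℝ F (c t) z = 0 → z = 0)
    (hc : ContinuousAt c t) (hx : ∀ᶠ s in 𝓝 t, F (c s) = x s) (hxd : HasDerivAt x w t) :
    ∃ c' : V, HasDerivAt c c' t ∧ fderiv ℝ F (c t) c' = w := by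
  have : CompleteSpace V := FiniteDimensional.complete ℝ V
  obtain ⟨L, hL⟩ := hadamard_exists_equiv (fderiv ℝ F (c t)) hinj
  have hFd : HasFDerivAt F (L : V →L[ℝ] V) (c t) := by
    rw [hL]; exact (hF.differentiableAt one_ne_zero).hasFDerivAt
  let φ := hF.toOpenPartialHomeomorph F hFd one_ne_zero
  have hφ : ∀ z, φ z = F z := fun z => rfl
  have hmem : c t ∈ φ.source := hF.mem_toOpenPartialHomeomorph_source hFd one_ne_zero
  have hev : ∀ᶠ s in 𝓝 t, c s = φ.symm (x s) := by
    have h1 : ∀ᶠ s in 𝓝 t, c s ∈ φ.source := hc (φ.open_source.mem_nhds hmem)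
    filter_upwards [h1, hx] with s h2 h3
    rw [← h3, ← hφ, φ.left_inv h2]
  have hxt : x t = F (c t) := hx.self_of_nhds.symm
  have htar : x t ∈ φ.target := by rw [hxt, ← hφ]; exact φ.map_source hmem
  have hsymm : φ.symm (x t) = c t := by rw [hxt, ← hφ, φ.left_inv hmem]
  have h4 : HasFDerivAt φ.symm (L.symm : V →L[ℝ] V) (x t) := by
    apply φ.hasFDerivAt_symm htar
    rw [hsymm]
    exact hFd
  have h5 : HasDerivAt (φ.symm ∘ x) (L.symm w) t := h4.comp_hasDerivAt t hxd
  refine ⟨L.symm w, h5.congr_of_eventuallyEq hev, ?_⟩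
  rw [← hL]
  exact L.apply_symm_apply w

theorem hadamard_form_lower (B : V →L[ℝ] V →L[ℝ] ℝ) (hp : ∀ v, v ≠ 0 → 0 < B v v) :
    ∃ c : ℝ, 0 < c ∧ ∀ v : V, c * ‖v‖ ^ 2 ≤ B v v := by
  have : ProperSpace V := FiniteDimensional.proper ℝ V
  have hcont : Continuous fun v : V => B v v := by fun_prop
  rcases (Metric.sphere (0 : V) 1).eq_empty_or_nonempty with h | h
  · refine ⟨1, one_pos, fun v => ?_⟩
    have hv : v = 0 := by
      by_contra hv
      have : (‖v‖⁻¹ • v) ∈ Metric.sphere (0 : V) 1 := by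
        simp [norm_smul, inv_mul_cancel₀ (norm_ne_zero_iff.2 hv)]
      rw [h] at this
      exact this
    simp [hv]
  · obtain ⟨v₀, hv₀, hmin⟩ := (isCompact_sphere (0 : V) 1).exists_isMinOn h
      hcont.continuousOn
    have hv₀0 : v₀ ≠ 0 := by
      rintro rfl
      simp at hv₀
    refine ⟨B v₀ v₀, hp v₀ hv₀0, fun v => ?_⟩
    rcases eq_or_ne v 0 with rfl | hv
    · simp
    · have hn : 0 < ‖v‖ := norm_pos_iff.2 hv
      have hmem : (‖v‖⁻¹ • v) ∈ Metric.sphere (0 : V) 1 := by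
        simp [norm_smul, inv_mul_cancel₀ hn.ne']
      have h1 : B v₀ v₀ ≤ B (‖v‖⁻¹ • v) (‖v‖⁻¹ • v) := hmin hmem
      simp only [map_smul, smul_apply, smul_eq_mul] at h1
      have h2 : ‖v‖⁻¹ * (‖v‖⁻¹ * B v v) * ‖v‖ ^ 2 = B v v := by
        field_simp
      calc B v₀ v₀ * ‖v‖ ^ 2
          ≤ ‖v‖⁻¹ * (‖v‖⁻¹ * B v v) * ‖v‖ ^ 2 :=
            mul_le_mul_of_nonneg_right h1 (by positivity)
        _ = B v v := h2

omit [FiniteDimensional ℝ V] in
/-- a path with bounded speed on the open interval is Lipschitz on the closed interval -/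
theorem hadamard_lipschitz {Γ : ℝ → V} {T C : ℝ} (hc : ContinuousOn Γ (Icc 0 T))
    (hd : ∀ t ∈ Ioo 0 T, ∃ c', HasDerivAt Γ c' t ∧ ‖c'‖ ≤ C) :
    ∀ t ∈ Icc 0 T, ‖Γ t - Γ 0‖ ≤ C * t := by
  choose! d hd1 hd2 using hd
  intro t ht
  rcases eq_or_lt_of_le ht.1 with h0 | h0
  · subst h0; simp
  have h1 : ∀ ε ∈ Ioo (0 : ℝ) t, ‖Γ t - Γ ε‖ ≤ C * (t - ε) := by
    intro ε hε
    refine norm_image_sub_le_of_norm_deriv_right_le_segment (f' := d)
      (hc.mono (Icc_subset_Icc hε.1.le ht.2)) (fun x hx => ?_) (fun x hx => ?_) t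
      ⟨hε.2.le, le_rfl⟩
    · exact (hd1 x ⟨hε.1.trans_le hx.1, hx.2.trans_le ht.2⟩).hasDerivWithinAt
    · exact hd2 x ⟨hε.1.trans_le hx.1, hx.2.trans_le ht.2⟩
  have h2 : Tendsto (fun ε => ‖Γ t - Γ ε‖) (𝓝[Ioo 0 t] 0) (𝓝 ‖Γ t - Γ 0‖) := by
    have h3 : Tendsto Γ (𝓝[Ioo 0 t] 0) (𝓝 (Γ 0)) :=
      (hc 0 ⟨le_rfl, h0.le.trans ht.2⟩).mono_left
        (nhdsWithin_mono _ (fun x hx => ⟨hx.1.le, hx.2.le.trans ht.2⟩))
    exact (tendsto_const_nhds.sub h3).norm
  have h4 : Tendsto (fun ε => C * (t - ε)) (𝓝[Ioo 0 t] 0) (𝓝 (C * (t - 0))) := by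
    have : Continuous fun ε : ℝ => C * (t - ε) := by fun_prop
    exact this.continuousAt.mono_left nhdsWithin_le_nhds
  have hne : (𝓝[Ioo 0 t] (0 : ℝ)).NeBot := by
    rw [nhdsWithin_Ioo_eq_nhdsGT h0]
    infer_instance
  have h5 := le_of_tendsto_of_tendsto h2 h4 (by
    filter_upwards [self_mem_nhdsWithin] with ε hε using h1 ε hε)
  simpa using h5

/-- lifting of segments -/
theorem hadamard_exists_lift {f : V → V} (hf : ContDiff ℝ ∞ f) (hG : Continuous G)
    (Q : V →L[ℝ] V →L[ℝ] ℝ) (hQ : ∀ v, v ≠ 0 → 0 < Q v v)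
    (hexp : ∀ v w, Q w w ≤ G (f v) (fderiv ℝ f v w) (fderiv ℝ f v w))
    (hinj : ∀ v z, fderiv ℝ f v z = 0 → z = 0) (y : V) :
    ∃ Γ, IsLiftOn f (fun t : ℝ => f 0 + t • (y - f 0)) 0 1 Γ := by
  have : ProperSpace V := FiniteDimensional.proper ℝ V
  obtain ⟨c, hc0, hc⟩ := hadamard_form_lower Q hQ
  have hγ : Continuous fun t : ℝ => f 0 + t • (y - f 0) := by fun_prop
  obtain ⟨C, hC⟩ : ∃ C, ∀ t ∈ Icc (0 : ℝ) 1,
      G (f 0 + t • (y - f 0)) (y - f 0) (y - f 0) ≤ C := by
    have h1 : Continuous fun t : ℝ => G (f 0 + t • (y - f 0)) (y - f 0) (y - f 0) := by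
      have h2 : Continuous fun t : ℝ => G (f 0 + t • (y - f 0)) := hG.comp hγ
      exact (h2.clm_apply continuous_const).clm_apply continuous_const
    obtain ⟨C, hC⟩ := (isCompact_Icc.image h1).bddAbove
    exact ⟨C, fun t ht => hC (mem_image_of_mem _ ht)⟩
  have hC0 : 0 ≤ C / c ∨ C / c < 0 := le_or_gt _ _
  refine exists_lift (hadamard_isLocalHomeomorph hf hinj) hγ.continuousOn (by simp)
    (isCompact_closedBall (0 : V) (Real.sqrt (C / c))) ?_
  intro T hT Γ hΓ t ht
  have key := hadamard_lipschitz (C := Real.sqrt (C / c)) hΓ.1 (fun s hs => ?_) t ht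
  · rw [mem_closedBall_zero_iff]
    rw [hΓ.2.2, sub_zero] at key
    refine key.trans ?_
    have h1 : t ≤ 1 := ht.2.trans hT.2
    have h2 := Real.sqrt_nonneg (C / c)
    nlinarith
  · have hcs : ContinuousAt Γ s := hΓ.1.continuousAt (Icc_mem_nhds hs.1 hs.2)
    have hev : ∀ᶠ r in 𝓝 s, f (Γ r) = f 0 + r • (y - f 0) := by
      filter_upwards [Icc_mem_nhds hs.1 hs.2] with r hr using hΓ.2.1 r hr
    have hxd : HasDerivAt (fun t : ℝ => f 0 + t • (y - f 0)) (y - f 0) s := by
      have := ((hasDerivAt_id s).smul_const (y - f 0)).const_add (f 0)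
      simpa using this
    obtain ⟨c', h1, h2⟩ := hadamard_hasDerivAt_lift
      (hf.of_le (by exact_mod_cast le_top)).contDiffAt (hinj (Γ s)) hcs hev hxd
    refine ⟨c', h1, ?_⟩
    have h3 := hexp (Γ s) c'
    rw [h2, hev.self_of_nhds] at h3
    have h4 := hC s ⟨hs.1.le, hs.2.le.trans hT.2⟩
    have h5 := hc c'
    apply Real.le_sqrt_of_sq_le
    rw [le_div_iff₀ hc0]
    linarith

/-- An expanding local diffeomorphism of a finite dimensional space is bijective. Here `Q` is a
fixed positive quadratic form and `G` any continuous metric. -/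
theorem bijective_of_expanding {f : V → V} (hf : ContDiff ℝ ∞ f) (hG : Continuous G)
    (hpos : ∀ x v, 0 ≤ G x v v) (Q : V →L[ℝ] V →L[ℝ] ℝ) (hQ : ∀ v, v ≠ 0 → 0 < Q v v)
    (hexp : ∀ v w, Q w w ≤ G (f v) (fderiv ℝ f v w) (fderiv ℝ f v w)) :
    Function.Bijective f := by
  have hinj : ∀ v z, fderiv ℝ f v z = 0 → z = 0 := by
    intro v z hz
    by_contra h
    have h1 := hexp v z
    rw [hz] at h1
    simp only [map_zero] at h1
    exact absurd (hQ z h) (not_lt.2 h1)
  have hloc := hadamard_isLocalHomeomorph hf hinj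
  have hsep : IsSeparatedMap f := T2Space.isSeparatedMap f
  choose Γ hΓ using hadamard_exists_lift hf hG Q hQ hexp hinj
  let H : C(I × V, V) := ⟨fun q => f 0 + (q.1 : ℝ) • (q.2 - f 0), by fun_prop⟩
  have hcont : Continuous fun q : I × V => Γ q.2 (q.1 : ℝ) := by
    refine hloc.continuous_lift hsep H ?_ ?_ ?_
    · ext q
      exact (hΓ q.2).2.1 q.1 q.1.2
    · have : (fun y => Γ y ((0 : I) : ℝ)) = fun _ => (0 : V) := by
        funext y
        exact (hΓ y).2.2
      simp only [this]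
      exact continuous_const
    · intro y
      exact (hΓ y).1.comp_continuous continuous_subtype_val (fun t => t.2)
  let s : V → V := fun y => Γ y 1
  have hs : Continuous s := by
    have h1 : Continuous fun y : V => ((1 : I), y) := by fun_prop
    exact hcont.comp h1
  have hfs : ∀ y, f (s y) = y := by
    intro y
    have := (hΓ y).2.1 1 ⟨zero_le_one, le_rfl⟩
    simpa using this
  have hs0 : s (f 0) = 0 := by
    have h1 : (fun t : I => Γ (f 0) (t : ℝ)) = fun _ => (0 : V) := by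
      refine hsep.eq_of_comp_eq hloc.isLocallyInjective
        ((hΓ (f 0)).1.comp_continuous continuous_subtype_val (fun t => t.2)) continuous_const
        ?_ (0 : I) (hΓ (f 0)).2.2
      ext t
      have := (hΓ (f 0)).2.1 t t.2
      simpa using this
    have := congrFun h1 (1 : I)
    simpa using this
  have hsf : ∀ v, s (f v) = v := by
    intro v
    have h1 : (fun t : ℝ => s (f (t • v))) = fun t : ℝ => t • v := by
      have hfc : Continuous f := hf.continuous
      refine hsep.eq_of_comp_eq hloc.isLocallyInjective ?_ (by fun_prop) ?_ (0 : ℝ) ?_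
      · exact hs.comp (hfc.comp (by fun_prop))
      · ext t
        exact hfs _
      · simpa using hs0
    have := congrFun h1 (1 : ℝ)
    simpa using this
  exact ⟨Function.LeftInverse.injective hsf, Function.RightInverse.surjective hfs⟩

/-- the inverse of a smooth bijection with injective differentials is smooth -/
theorem hadamard_inverse_smooth {W : Type} [NormedAddCommGroup W] [NormedSpace ℝ W]
    [FiniteDimensional ℝ W] {f g : W → W} (hf : ContDiff ℝ ∞ f)
    (hinj : ∀ v z, fderiv ℝ f v z = 0 → z = 0) (hfg : ∀ y, f (g y) = y)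
    (hgf : ∀ v, g (f v) = v) : ContDiff ℝ ∞ g := by
  have : CompleteSpace W := FiniteDimensional.complete ℝ W
  rw [contDiff_iff_contDiffAt]
  intro y
  obtain ⟨L, hL⟩ := hadamard_exists_equiv (fderiv ℝ f (g y)) (hinj (g y))
  have hFd : HasFDerivAt f (L : W →L[ℝ] W) (g y) := by
    rw [hL]; exact (hf.differentiable (by simp) _).hasFDerivAt
  have hcd : ContDiffAt ℝ ∞ f (g y) := hf.contDiffAt
  have hn : (∞ : WithTop ℕ∞) ≠ 0 := by simp
  let φ := hcd.toOpenPartialHomeomorph f hFd hn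
  have hmem : y ∈ φ.target := by
    have := hcd.image_mem_toOpenPartialHomeomorph_target hFd hn
    rwa [hfg] at this
  have h1 := hcd.to_localInverse hFd hn
  rw [hfg] at h1
  refine h1.congr_of_eventuallyEq ?_
  filter_upwards [φ.open_target.mem_nhds hmem] with z hz
  have h2 : f (hcd.localInverse hFd hn z) = z := φ.right_inv hz
  have h3 := congrArg g h2
  rw [hgf] at h3
  exact h3.symm

/-- the smooth logarithm, from the expansion property of the exponential map -/
theorem exists_log_of_expanding (F : GFlow G) (h : IsMetricOn G univ)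
    (hexpand : ∀ x v w : V, G x w w ≤
      G (F.ex x v) (fderiv ℝ (F.ex x) v w) (fderiv ℝ (F.ex x) v w)) :
    ∃ lg : V → V → V, ContDiff ℝ ∞ (fun q : V × V => lg q.1 q.2) ∧
      (∀ x y, F.ex x (lg x y) = y) ∧ ∀ x v, lg x (F.ex x v) = v := by
  have hex : ContDiff ℝ ∞ fun q : V × V => F.ex q.1 q.2 := F.ex_smooth
  have hexx : ∀ x, ContDiff ℝ ∞ (F.ex x) := fun x => hex.comp (contDiff_const.prodMk contDiff_id)
  have hG : Continuous G := (contDiffOn_univ.1 h.smooth).continuous
  have hpos : ∀ x v, v ≠ 0 → 0 < G x v v := fun x => h.pos x (mem_univ x)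
  have hbij : ∀ x, Function.Bijective (F.ex x) := fun x =>
    bijective_of_expanding (hexx x) hG
      (fun y v => by
        rcases eq_or_ne v 0 with rfl | hv
        · simp
        · exact (hpos y v hv).le)
      (G x) (hpos x) (fun v w => hexpand x v w)
  let e : ∀ x, V ≃ V := fun x => Equiv.ofBijective (F.ex x) (hbij x)
  have he1 : ∀ x y, F.ex x ((e x).symm y) = y := fun x y => (e x).apply_symm_apply y
  have he2 : ∀ x v, (e x).symm (F.ex x v) = v := fun x v => (e x).symm_apply_apply v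
  refine ⟨fun x y => (e x).symm y, ?_, he1, he2⟩
  let Ψ : V × V → V × V := fun q => (q.1, F.ex q.1 q.2)
  have hΨ : ContDiff ℝ ∞ Ψ := contDiff_fst.prodMk hex
  have hinjx : ∀ x v w, fderiv ℝ (F.ex x) v w = 0 → w = 0 := by
    intro x v w hw
    by_contra hne
    have h1 := hexpand x v w
    rw [hw] at h1
    simp only [map_zero] at h1
    exact absurd (hpos x w hne) (not_lt.2 h1)
  have hinj : ∀ q z, fderiv ℝ Ψ q z = 0 → z = 0 := by
    rintro ⟨x, v⟩ ⟨a, b⟩ hz
    have hd : DifferentiableAt ℝ (fun q : V × V => F.ex q.1 q.2) (x, v) :=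
      hex.differentiable (by simp) _
    have h1 : fderiv ℝ Ψ (x, v) (a, b) =
        (a, fderiv ℝ (fun q : V × V => F.ex q.1 q.2) (x, v) (a, b)) := by
      have : HasFDerivAt Ψ ((ContinuousLinearMap.fst ℝ V V).prod
          (fderiv ℝ (fun q : V × V => F.ex q.1 q.2) (x, v))) (x, v) :=
        hasFDerivAt_fst.prodMk hd.hasFDerivAt
      rw [this.fderiv]
      rfl
    rw [h1] at hz
    have ha : a = 0 := congrArg Prod.fst hz
    have hb : fderiv ℝ (fun q : V × V => F.ex q.1 q.2) (x, v) (a, b) = 0 := congrArg Prod.snd hz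
    subst ha
    have h2 : fderiv ℝ (F.ex x) v b =
        fderiv ℝ (fun q : V × V => F.ex q.1 q.2) (x, v) (0, b) := by
      have h3 : HasFDerivAt (fun v : V => (x, v)) (ContinuousLinearMap.inr ℝ V V) v :=
        hasFDerivAt_prodMk_right x v
      have h4 : HasFDerivAt (F.ex x) ((fderiv ℝ (fun q : V × V => F.ex q.1 q.2) (x, v)).comp
          (ContinuousLinearMap.inr ℝ V V)) v := hd.hasFDerivAt.comp v h3
      rw [h4.fderiv]
      rfl
    rw [← h2] at hb
    rw [hinjx x v b hb]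
    rfl
  have hinv : ContDiff ℝ ∞ fun q : V × V => ((q.1, (e q.1).symm q.2) : V × V) := by
    refine hadamard_inverse_smooth hΨ hinj ?_ ?_
    · rintro ⟨x, y⟩
      exact Prod.ext rfl (he1 x y)
    · rintro ⟨x, v⟩
      exact Prod.ext rfl (he2 x v)
  exact contDiff_snd.comp hinv

end Vale.Agent.P219.CH
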