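import Vale.Agent.P219.CH.FlowProp

/-!
G3: Jacobi fields, Gauss lemma, Rauch monotonicity.
-/

open Set Filter Topology
open scoped ContDiff
open Vale.Agent.P255

noncomputable section

namespace Vale.Agent.P219.CH

theorem jac_hasDerivAt_fst {W : Type} [NormedAddCommGroup W] [NormedSpace ℝ W] {f : ℝ → W × W}
    {f' : W × W} {t : ℝ} (h : HasDerivAt f f' t) : HasDerivAt (fun s => (f s).1) f'.1 t :=
  (ContinuousLinearMap.fst ℝ W W).hasFDerivAt.comp_hasDerivAt t h

theorem jac_hasDerivAt_snd {W : Type} [NormedAddCommGroup W] [NormedSpace ℝ W] {f : ℝ → W × W}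
    {f' : W × W} {t : ℝ} (h : HasDerivAt f f' t) : HasDerivAt (fun s => (f s).2) f'.2 t :=
  (ContinuousLinearMap.snd ℝ W W).hasFDerivAt.comp_hasDerivAt t h

theorem jac_time_deriv {W : Type} [NormedAddCommGroup W] [NormedSpace ℝ W] {Ψ : ℝ × W → W}
    (hd : Differentiable ℝ Ψ) {g : W → W}
    (heq : ∀ s z, HasDerivAt (fun r => Ψ (r, z)) (g (Ψ (s, z))) s) (q : ℝ × W) :
    fderiv ℝ Ψ q (1, 0) = g (Ψ q) := by
  obtain ⟨s, z⟩ := q
  have h1 : HasDerivAt (fun r : ℝ => ((r, z) : ℝ × W)) (1, 0) s :=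
    (hasDerivAt_id s).prodMk (hasDerivAt_const s z)
  have h2 : HasFDerivAt Ψ (fderiv ℝ Ψ (s, z)) ((fun r : ℝ => ((r, z) : ℝ × W)) s) :=
    (hd (s, z)).hasFDerivAt
  have h3 : HasDerivAt (fun r => Ψ (r, z)) (fderiv ℝ Ψ (s, z) (1, 0)) s :=
    h2.comp_hasDerivAt s h1
  exact h3.unique (heq s z)

/-- differentiating a smooth flow with respect to the initial value: the linearised equation -/
theorem jac_mixed {W : Type} [NormedAddCommGroup W] [NormedSpace ℝ W] {Ψ : ℝ × W → W}
    (hs : ContDiff ℝ ∞ Ψ) {g : W → W} (hg : Differentiable ℝ g)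
    (heq : ∀ s z, HasDerivAt (fun r => Ψ (r, z)) (g (Ψ (s, z))) s) (t : ℝ) (z u : W) :
    HasDerivAt (fun r => fderiv ℝ Ψ (r, z) (0, u))
      (fderiv ℝ g (Ψ (t, z)) (fderiv ℝ Ψ (t, z) (0, u))) t := by
  have hd : Differentiable ℝ Ψ := hs.differentiable (by simp)
  have hd2 : DifferentiableAt ℝ (fderiv ℝ Ψ) (t, z) :=
    (hs.contDiffAt.fderiv_right (m := ∞) (by simp)).differentiableAt (by simp)
  have hsym : fderiv ℝ (fderiv ℝ Ψ) (t, z) (1, 0) (0, u) =
      fderiv ℝ (fderiv ℝ Ψ) (t, z) (0, u) (1, 0) :=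
    (hs.contDiffAt.isSymmSndFDerivAt (by simpa using two_le_infty)) _ _
  have h1 : HasDerivAt (fun r => fderiv ℝ Ψ (r, z) (0, u))
      (fderiv ℝ (fderiv ℝ Ψ) (t, z) (1, 0) (0, u)) t := by
    have h2 : HasDerivAt (fun r : ℝ => ((r, z) : ℝ × W)) (1, 0) t :=
      (hasDerivAt_id t).prodMk (hasDerivAt_const t z)
    have h3 : HasFDerivAt (fderiv ℝ Ψ) (fderiv ℝ (fderiv ℝ Ψ) (t, z))
        ((fun r : ℝ => ((r, z) : ℝ × W)) t) := hd2.hasFDerivAt
    have h5 : HasDerivAt (fun r : ℝ => fderiv ℝ Ψ (r, z))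
        (fderiv ℝ (fderiv ℝ Ψ) (t, z) (1, 0)) t := h3.comp_hasDerivAt t h2
    have h4 := h5.clm_apply (hasDerivAt_const t ((0, u) : ℝ × W))
    simpa using h4
  have h6 : HasFDerivAt (fun q => fderiv ℝ Ψ q (1, 0))
      ((fderiv ℝ (fderiv ℝ Ψ) (t, z)).flip (1, 0)) (t, z) := by
    have h7 := hd2.hasFDerivAt.clm_apply (hasFDerivAt_const ((1, 0) : ℝ × W) (t, z))
    refine h7.congr_fderiv ?_
    ext q <;> simp
  have h7 : (fun q => fderiv ℝ Ψ q (1, 0)) = fun q => g (Ψ q) :=
    funext fun q => jac_time_deriv hd heq q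
  rw [h7] at h6
  have h8 : HasFDerivAt (fun q => g (Ψ q)) ((fderiv ℝ g (Ψ (t, z))).comp (fderiv ℝ Ψ (t, z)))
      (t, z) := (hg (Ψ (t, z))).hasFDerivAt.comp (t, z) (hd (t, z)).hasFDerivAt
  have h9 : (fderiv ℝ (fderiv ℝ Ψ) (t, z)).flip (1, 0) (0, u) =
      ((fderiv ℝ g (Ψ (t, z))).comp (fderiv ℝ Ψ (t, z))) (0, u) := by
    rw [h6.unique h8]
  rw [ContinuousLinearMap.flip_apply, ContinuousLinearMap.comp_apply] at h9
  rw [hsym, h9] at h1
  exact h1

variable {V : Type} [NormedAddCommGroup V] [NormedSpace ℝ V] [FiniteDimensional ℝ V]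
variable {G : V → V →L[ℝ] V →L[ℝ] ℝ}

namespace GFlow

variable (F : GFlow G)

theorem jac_ex_contDiff (x : V) : ContDiff ℝ ∞ (F.ex x) :=
  F.ex_smooth.comp (contDiff_prodMk_right x)

theorem jac_ex_diff (x v : V) : DifferentiableAt ℝ (F.ex x) v :=
  (F.jac_ex_contDiff x).contDiffAt.differentiableAt (by simp)

theorem jac_vel_zero (x v : V) : F.vel 0 x v = v := by
  unfold vel
  rw [F.zero]

/-- the geodesic -/
def jacC (x v : V) (t : ℝ) : V := F.ex x (t • v)

/-- the Jacobi field -/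
def jacJ (x v w : V) (t : ℝ) : V := fderiv ℝ (F.ex x) (t • v) (t • w)

theorem jac_hasDerivAt_C (h : IsMetricOn G univ) (x v : V) (t : ℝ) :
    HasDerivAt (F.jacC x v) (F.vel t x v) t := by
  have h1 := jac_hasDerivAt_fst (F.eqn t (x, v))
  have h2 : (fun s => (F.Φ s (x, v)).1) = F.jacC x v := by
    funext s
    exact F.fst_eq h s x v
  rw [h2] at h1
  exact h1

theorem jac_deriv_C (h : IsMetricOn G univ) (x v : V) :
    deriv (F.jacC x v) = fun t => F.vel t x v := by
  funext t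
  exact (F.jac_hasDerivAt_C h x v t).deriv

theorem jac_hasDerivAt_vel (h : IsMetricOn G univ) (x v : V) (t : ℝ) :
    HasDerivAt (fun s => F.vel s x v)
      (- chris G (F.jacC x v t) (F.vel t x v) (F.vel t x v)) t := by
  have h1 := jac_hasDerivAt_snd (F.eqn t (x, v))
  have h2 : (geoField G (F.Φ t (x, v))).2 =
      - chris G (F.jacC x v t) (F.vel t x v) (F.vel t x v) := by
    unfold geoField jacC vel
    rw [← F.fst_eq h t x v]
  rw [h2] at h1
  exact h1

/-- derivative of the flow in the initial velocity -/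
def jacL (x v w : V) (t : ℝ) : V × V :=
  fderiv ℝ (fun q : ℝ × (V × V) => F.Φ q.1 q.2) (t, (x, v)) (0, (0, w))

theorem jac_L_fst (h : IsMetricOn G univ) (x v w : V) (t : ℝ) :
    (F.jacL x v w t).1 = F.jacJ x v w t := by
  have h1 : DifferentiableAt ℝ (fun q : ℝ × (V × V) => F.Φ q.1 q.2) (t, (x, v)) :=
    F.smooth.contDiffAt.differentiableAt (by simp)
  have h2 : HasDerivAt (fun s : ℝ => ((t, (x, v + s • w)) : ℝ × (V × V))) (0, (0, w)) 0 := by
    have h3 : HasDerivAt (fun s : ℝ => v + s • w) w 0 := by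
      simpa using ((hasDerivAt_id (0 : ℝ)).smul_const w).const_add v
    exact (hasDerivAt_const (0 : ℝ) t).prodMk ((hasDerivAt_const (0 : ℝ) x).prodMk h3)
  have h4 : HasDerivAt (fun s : ℝ => F.Φ t (x, v + s • w)) (F.jacL x v w t) 0 := by
    have h5 : HasFDerivAt (fun q : ℝ × (V × V) => F.Φ q.1 q.2)
        (fderiv ℝ (fun q : ℝ × (V × V) => F.Φ q.1 q.2) (t, (x, v)))
        ((fun s : ℝ => ((t, (x, v + s • w)) : ℝ × (V × V))) 0) := by
      simpa using h1.hasFDerivAt
    exact h5.comp_hasDerivAt (0 : ℝ) h2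
  have h6 : HasDerivAt (fun s : ℝ => F.ex x (t • (v + s • w))) (F.jacL x v w t).1 0 := by
    have h7 := jac_hasDerivAt_fst h4
    have h8 : (fun s : ℝ => (F.Φ t (x, v + s • w)).1) =
        fun s : ℝ => F.ex x (t • (v + s • w)) := by
      funext s
      exact F.fst_eq h t x (v + s • w)
    rw [h8] at h7
    exact h7
  have h9 : HasDerivAt (fun s : ℝ => t • (v + s • w)) (t • w) 0 := by
    have h3 : HasDerivAt (fun s : ℝ => v + s • w) w 0 := by
      simpa using ((hasDerivAt_id (0 : ℝ)).smul_const w).const_add v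
    exact h3.const_smul t
  have h10 : HasDerivAt (fun s : ℝ => F.ex x (t • (v + s • w)))
      (fderiv ℝ (F.ex x) (t • v) (t • w)) 0 := by
    have h11 : HasFDerivAt (F.ex x) (fderiv ℝ (F.ex x) (t • v))
        ((fun s : ℝ => t • (v + s • w)) 0) := by
      simpa using (F.jac_ex_diff x (t • v)).hasFDerivAt
    exact h11.comp_hasDerivAt (0 : ℝ) h9
  exact h6.unique h10

/-- the linearised equation -/
theorem jac_hasDerivAt_L (h : IsMetricOn G univ) (x v w : V) (t : ℝ) :
    HasDerivAt (F.jacL x v w)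
      (fderiv ℝ (geoField G) (F.Φ t (x, v)) (F.jacL x v w t)) t := by
  have hg : Differentiable ℝ (geoField G) := fun p =>
    (h.contDiffAt_geoField (mem_univ p.1)).differentiableAt (by simp)
  exact jac_mixed (Ψ := fun q : ℝ × (V × V) => F.Φ q.1 q.2) F.smooth hg F.eqn t (x, v) (0, w)

theorem jac_hasDerivAt_J (h : IsMetricOn G univ) (x v w : V) (t : ℝ) :
    HasDerivAt (F.jacJ x v w) (F.jacL x v w t).2 t := by
  have h1 := jac_hasDerivAt_fst (F.jac_hasDerivAt_L h x v w t)
  have h2 : (fun s => (F.jacL x v w s).1) = F.jacJ x v w := by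
    funext s
    exact F.jac_L_fst h x v w s
  rw [h2] at h1
  have e : F.Φ t (x, v) = (F.jacC x v t, F.vel t x v) := by
    unfold jacC vel
    rw [← F.fst_eq h t x v]
  rw [e, ← Prod.mk.eta (p := F.jacL x v w t), h.fderiv_geoField (mem_univ _)] at h1
  exact h1

theorem jac_deriv_J (h : IsMetricOn G univ) (x v w : V) :
    deriv (F.jacJ x v w) = fun t => (F.jacL x v w t).2 := by
  funext t
  exact (F.jac_hasDerivAt_J h x v w t).deriv

theorem jac_hasDerivAt_dJ (h : IsMetricOn G univ) (x v w : V) (t : ℝ) :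
    HasDerivAt (deriv (F.jacJ x v w))
      (- (fderiv ℝ (fun p => chris G p (F.vel t x v) (F.vel t x v)) (F.jacC x v t)
        (F.jacJ x v w t) + (2 : ℝ) • chris G (F.jacC x v t) (F.vel t x v)
          (deriv (F.jacJ x v w) t))) t := by
  have h1 := jac_hasDerivAt_snd (F.jac_hasDerivAt_L h x v w t)
  have e : F.Φ t (x, v) = (F.jacC x v t, F.vel t x v) := by
    unfold jacC vel
    rw [← F.fst_eq h t x v]
  rw [e, ← Prod.mk.eta (p := F.jacL x v w t), h.fderiv_geoField (mem_univ _),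
    F.jac_L_fst h] at h1
  rw [F.jac_deriv_J h]
  exact h1

/-- the Jacobi equation -/
theorem jac_eqn (h : IsMetricOn G univ) (x v w : V) (t : ℝ) :
    DifferentiableAt ℝ (covD G (F.jacC x v) (F.jacJ x v w)) t ∧
    covD G (F.jacC x v) (covD G (F.jacC x v) (F.jacJ x v w)) t +
      curv G (F.jacC x v t) (F.jacJ x v w t) (F.vel t x v) (F.vel t x v) = 0 := by
  have h1 := h.jacobi_of_linearized (c := F.jacC x v) (J := F.jacJ x v w) (t := t)
    (mem_univ _) ?_ ?_ ?_
  · rw [F.jac_deriv_C h] at h1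
    exact h1
  · refine Eventually.of_forall fun s => ⟨(F.jac_hasDerivAt_C h x v s).differentiableAt, ?_, ?_⟩
    · rw [F.jac_deriv_C h]
      exact (F.jac_hasDerivAt_vel h x v s).differentiableAt
    · rw [F.jac_deriv_C h]
      exact (F.jac_hasDerivAt_vel h x v s).deriv
  · exact Eventually.of_forall fun s => (F.jac_hasDerivAt_J h x v w s).differentiableAt
  · rw [F.jac_deriv_C h]
    exact F.jac_hasDerivAt_dJ h x v w t

theorem jac_covD_vel (h : IsMetricOn G univ) (x v : V) (t : ℝ) :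
    covD G (F.jacC x v) (fun s => F.vel s x v) t = 0 := by
  unfold covD
  rw [(F.jac_hasDerivAt_vel h x v t).deriv, F.jac_deriv_C h]
  simp

theorem jac_J_zero (x v w : V) : F.jacJ x v w 0 = 0 := by
  simp [jacJ]

theorem jac_C_zero (h : IsMetricOn G univ) (x v : V) : F.jacC x v 0 = x := by
  simp [jacC, F.ex_zero h]

theorem fderiv_ex_zero (h : IsMetricOn G univ) (x w : V) : fderiv ℝ (F.ex x) 0 w = w := by
  have h1 := F.fderiv_ray h x w 0
  rw [zero_smul, F.jac_vel_zero] at h1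
  exact h1

/-- the field `D_{tv} exp w` -/
def jacD (x v w : V) (t : ℝ) : V := fderiv ℝ (F.ex x) (t • v) w

theorem jac_J_eq (x v w : V) (t : ℝ) : F.jacJ x v w t = t • F.jacD x v w t := by
  simp [jacJ, jacD]

theorem jac_D_cont (x v w : V) : Continuous (F.jacD x v w) := by
  have h1 : Continuous (fderiv ℝ (F.ex x)) :=
    (F.jac_ex_contDiff x).continuous_fderiv (by simp)
  have h2 : Continuous fun t : ℝ => fderiv ℝ (F.ex x) (t • v) :=
    h1.comp (continuous_id.smul continuous_const)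
  exact h2.clm_apply continuous_const

theorem jac_D_diff (x v w : V) (t : ℝ) : DifferentiableAt ℝ (F.jacD x v w) t := by
  have h1 : ContDiff ℝ ∞ (fderiv ℝ (F.ex x)) :=
    (F.jac_ex_contDiff x).fderiv_right (m := ∞) (by simp)
  have h2 : ContDiff ℝ ∞ fun t : ℝ => fderiv ℝ (F.ex x) (t • v) :=
    h1.comp (contDiff_id.smul contDiff_const)
  exact (h2.clm_apply contDiff_const).contDiffAt.differentiableAt (by simp)

theorem jac_deriv_J_zero (x v w : V) (h : IsMetricOn G univ) : deriv (F.jacJ x v w) 0 = w := by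
  have h1 : HasDerivAt (fun t : ℝ => t • F.jacD x v w t)
      ((0 : ℝ) • deriv (F.jacD x v w) 0 + (1 : ℝ) • F.jacD x v w 0) 0 :=
    (hasDerivAt_id (0 : ℝ)).smul (F.jac_D_diff x v w 0).hasDerivAt
  have h2 : (fun t : ℝ => t • F.jacD x v w t) = F.jacJ x v w :=
    funext fun t => (F.jac_J_eq x v w t).symm
  rw [h2] at h1
  rw [h1.deriv, zero_smul, one_smul, zero_add]
  unfold jacD
  rw [zero_smul, F.fderiv_ex_zero h]

theorem jac_covD_J_zero (h : IsMetricOn G univ) (x v w : V) :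
    covD G (F.jacC x v) (F.jacJ x v w) 0 = w := by
  unfold covD
  rw [F.jac_deriv_J_zero x v w h, F.jac_J_zero]
  have := chrisB_apply G (F.jacC x v 0) (deriv (F.jacC x v) 0) 0
  rw [← this]
  simp

theorem gauss (h : IsMetricOn G univ) (x v w : V) :
    G (F.ex x v) (fderiv ℝ (F.ex x) v v) (fderiv ℝ (F.ex x) v w) = G x v w := by
  set c := F.jacC x v with hc
  set J := F.jacJ x v w with hJ
  have hcd : ∀ t, DifferentiableAt ℝ c t := fun t => (F.jac_hasDerivAt_C h x v t).differentiableAt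
  have hvd : ∀ t, DifferentiableAt ℝ (fun s => F.vel s x v) t := fun t =>
    (F.jac_hasDerivAt_vel h x v t).differentiableAt
  have hJd : ∀ t, DifferentiableAt ℝ J t := fun t =>
    (F.jac_hasDerivAt_J h x v w t).differentiableAt
  have hDJ : ∀ t, DifferentiableAt ℝ (covD G c J) t := fun t => (F.jac_eqn h x v w t).1
  -- second derivative vanishes
  have h1 : ∀ t, HasDerivAt (fun s => G (c s) (covD G c J s) (F.vel s x v)) 0 t := by
    intro t
    refine (h.hasDerivAt_inner (mem_univ _) (hcd t) (hDJ t) (hvd t)).congr_deriv ?_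
    have h2 := (F.jac_eqn h x v w t).2
    rw [F.jac_covD_vel h x v t, map_zero, add_zero, eq_neg_of_add_eq_zero_left h2, map_neg,
      neg_apply, h.curv_skew (mem_univ _), neg_zero]
  have h2 : ∀ t, G (c t) (covD G c J t) (F.vel t x v) = G x v w := by
    intro t
    have h3 : G (c t) (covD G c J t) (F.vel t x v) = G (c 0) (covD G c J 0) (F.vel 0 x v) :=
      is_const_of_deriv_eq_zero (fun s => (h1 s).differentiableAt) (fun s => (h1 s).deriv) t 0
    rw [h3, hc, hJ, F.jac_covD_J_zero h x v w, F.jac_vel_zero, F.jac_C_zero h,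
      h.symm x (mem_univ _)]
  have h3 : ∀ t, HasDerivAt (fun s => G (c s) (J s) (F.vel s x v) - s * G x v w) 0 t := by
    intro t
    have h4 := h.hasDerivAt_inner (mem_univ _) (hcd t) (hJd t) (hvd t)
    rw [F.jac_covD_vel h x v t, map_zero, add_zero, h2 t] at h4
    refine (h4.sub ((hasDerivAt_id t).mul_const (G x v w))).congr_deriv ?_
    ring
  have h4 : G (c 1) (J 1) (F.vel 1 x v) - 1 * G x v w =
      G (c 0) (J 0) (F.vel 0 x v) - 0 * G x v w :=
    is_const_of_deriv_eq_zero (fun s => (h3 s).differentiableAt) (fun s => (h3 s).deriv) 1 0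
  rw [hJ, F.jac_J_zero, map_zero, zero_apply, zero_mul, sub_zero, one_mul, sub_eq_zero,
    ← F.fderiv_ray h x v 1, h.symm _ (mem_univ _)] at h4
  simpa [hc, jacC, jacJ] using h4

/-- squared length of the Jacobi field -/
def jacF (x v w : V) (t : ℝ) : ℝ := G (F.jacC x v t) (F.jacJ x v w t) (F.jacJ x v w t)

theorem jac_hasDerivAt_F (h : IsMetricOn G univ) (x v w : V) (t : ℝ) :
    HasDerivAt (F.jacF x v w) (2 * G (F.jacC x v t) (covD G (F.jacC x v) (F.jacJ x v w) t)
      (F.jacJ x v w t)) t := by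
  have hJd := (F.jac_hasDerivAt_J h x v w t).differentiableAt
  refine (h.hasDerivAt_inner (mem_univ _) (F.jac_hasDerivAt_C h x v t).differentiableAt
    hJd hJd).congr_deriv ?_
  rw [h.symm _ (mem_univ _) (F.jacJ x v w t)]
  ring

theorem jac_second (h : IsMetricOn G univ) (hsec : ∀ x u v, G x (curv G x u v v) u ≤ 0)
    (x v w : V) (t : ℝ) : ∃ f'' : ℝ, HasDerivAt (deriv (F.jacF x v w)) f'' t ∧
      2 * G (F.jacC x v t) (covD G (F.jacC x v) (F.jacJ x v w) t)
        (covD G (F.jacC x v) (F.jacJ x v w) t) ≤ f'' := by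
  have hJd := (F.jac_hasDerivAt_J h x v w t).differentiableAt
  have e : deriv (F.jacF x v w) = fun s => 2 * G (F.jacC x v s)
      (covD G (F.jacC x v) (F.jacJ x v w) s) (F.jacJ x v w s) :=
    funext fun s => (F.jac_hasDerivAt_F h x v w s).deriv
  obtain ⟨h1, h2⟩ := F.jac_eqn h x v w t
  rw [e]
  refine ⟨_, (h.hasDerivAt_inner (mem_univ _) (F.jac_hasDerivAt_C h x v t).differentiableAt
    h1 hJd).const_mul 2, ?_⟩
  rw [eq_neg_of_add_eq_zero_left h2, map_neg, neg_apply]
  have h3 := hsec (F.jacC x v t) (F.jacJ x v w t) (F.vel t x v)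
  linarith

theorem jac_F_eq (x v w : V) (t : ℝ) : F.jacF x v w t =
    t ^ 2 * G (F.jacC x v t) (F.jacD x v w t) (F.jacD x v w t) := by
  unfold jacF
  rw [F.jac_J_eq]
  simp only [map_smul, smul_apply, smul_eq_mul]
  ring

theorem jac_ratio_cont (h : IsMetricOn G univ) (x v w : V) :
    Continuous fun t => G (F.jacC x v t) (F.jacD x v w t) (F.jacD x v w t) := by
  have h1 : Continuous G := continuous_iff_continuousAt.2 fun u =>
    (h.contDiffAt (mem_univ u)).continuousAt
  have h2 : Continuous (F.jacC x v) := continuous_iff_continuousAt.2 fun t =>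
    (F.jac_hasDerivAt_C h x v t).continuousAt
  exact ((h1.comp h2).clm_apply (F.jac_D_cont x v w)).clm_apply (F.jac_D_cont x v w)

theorem jac_mono (h : IsMetricOn G univ) (hsec : ∀ x u v, G x (curv G x u v v) u ≤ 0)
    (x v w : V) : MonotoneOn (fun t => F.jacF x v w t / t ^ 2) (Ioi 0) := by
  set f := F.jacF x v w with hf
  have hf1 : ∀ t, HasDerivAt f (deriv f t) t := fun t =>
    (F.jac_hasDerivAt_F h x v w t).differentiableAt.hasDerivAt
  -- second derivative
  have hf2 : ∀ t, 0 < t → ∃ f'' : ℝ, HasDerivAt (deriv f) f'' t ∧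
      0 ≤ f'' - 2 * deriv f t / t + 2 * f t / t ^ 2 := by
    intro t ht
    obtain ⟨f'', h1, h2⟩ := F.jac_second h hsec x v w t
    refine ⟨f'', h1, ?_⟩
    have h3 := (F.jac_hasDerivAt_F h x v w t).deriv
    set D := covD G (F.jacC x v) (F.jacJ x v w) t with hD
    set Gc := G (F.jacC x v t) with hG
    set J := F.jacJ x v w t with hJ
    have h4 : 0 ≤ Gc (D - t⁻¹ • J) (D - t⁻¹ • J) := h.nonneg (mem_univ _) _
    have h5 : Gc J D = Gc D J := h.symm _ (mem_univ _) _ _
    simp only [map_sub, sub_apply, map_smul, smul_apply, smul_eq_mul] at h4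
    rw [h5] at h4
    have h6 : f t = Gc J J := rfl
    rw [← h6] at h4
    have h7 : deriv f t = 2 * Gc D J := h3
    rw [h7]
    have h8 : 2 * (2 * Gc D J) / t = 4 * (t⁻¹ * Gc D J) := by
      field_simp; ring
    have h9 : 2 * f t / t ^ 2 = 2 * (t⁻¹ * (t⁻¹ * f t)) := by
      field_simp
    rw [h8, h9]
    linarith
  have hlim1 : Tendsto (fun t => deriv f t - 2 * (f t / t)) (𝓝[>] 0) (𝓝 0) := by
    have h1 : Tendsto (deriv f) (𝓝[>] 0) (𝓝 0) := by
      obtain ⟨f'', h2, -⟩ := F.jac_second h hsec x v w 0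
      have h3 : deriv f 0 = 0 := by
        rw [(F.jac_hasDerivAt_F h x v w 0).deriv, F.jac_J_zero]
        simp
      have h4 : Tendsto (deriv f) (𝓝[>] 0) (𝓝 (deriv f 0)) :=
        h2.continuousAt.tendsto.mono_left nhdsWithin_le_nhds
      rwa [h3] at h4
    have h2 : Tendsto (fun t => t * G (F.jacC x v t) (F.jacD x v w t) (F.jacD x v w t))
        (𝓝[>] 0) (𝓝 0) := by
      have h5 : Continuous fun t => t * G (F.jacC x v t) (F.jacD x v w t) (F.jacD x v w t) :=
        continuous_id.mul (F.jac_ratio_cont h x v w)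
      have h6 := (h5.tendsto 0).mono_left (nhdsWithin_le_nhds (s := Ioi 0))
      simpa using h6
    have h3 := h1.sub (h2.const_mul 2)
    simp only [mul_zero, sub_zero] at h3
    refine h3.congr' ?_
    filter_upwards [self_mem_nhdsWithin] with t ht
    have ht' : t ≠ 0 := ne_of_gt ht
    rw [hf, F.jac_F_eq x v w t]
    field_simp
  -- first monotonicity
  have hmono1 : MonotoneOn (fun t => deriv f t - 2 * (f t / t)) (Ioi 0) := by
    have key : ∀ t ∈ Ioi (0 : ℝ), ∃ d, 0 ≤ d ∧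
        HasDerivAt (fun t => deriv f t - 2 * (f t / t)) d t := by
      intro t ht
      have ht' : t ≠ 0 := ne_of_gt ht
      obtain ⟨f'', h1, h2⟩ := hf2 t ht
      refine ⟨_, h2, ?_⟩
      have h3 := h1.sub (((hf1 t).div (hasDerivAt_id t) ht').const_mul 2)
      refine h3.congr_deriv ?_
      simp only [id]
      field_simp
      ring
    refine monotoneOn_of_deriv_nonneg (convex_Ioi 0) ?_ ?_ ?_
    · intro t ht
      obtain ⟨d, _, hd⟩ := key t ht
      exact hd.continuousAt.continuousWithinAt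
    · intro t ht
      rw [interior_Ioi] at ht
      obtain ⟨d, _, hd⟩ := key t ht
      exact hd.differentiableAt.differentiableWithinAt
    · intro t ht
      rw [interior_Ioi] at ht
      obtain ⟨d, hd0, hd⟩ := key t ht
      rw [hd.deriv]; exact hd0
  have hk : ∀ t, 0 < t → 0 ≤ deriv f t - 2 * (f t / t) := by
    intro t ht
    refine le_of_tendsto hlim1 ?_
    filter_upwards [Ioo_mem_nhdsGT ht] with s hs
    exact hmono1 hs.1 ht hs.2.le
  have key : ∀ t ∈ Ioi (0 : ℝ), ∃ d, 0 ≤ d ∧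
      HasDerivAt (fun t => f t / t ^ 2) d t := by
    intro t ht
    have ht' : t ≠ 0 := ne_of_gt ht
    refine ⟨(deriv f t - 2 * (f t / t)) / t ^ 2, div_nonneg (hk t ht) (by positivity), ?_⟩
    have h3 := (hf1 t).div (hasDerivAt_pow 2 t) (pow_ne_zero 2 ht')
    refine h3.congr_deriv ?_
    field_simp
    ring
  refine monotoneOn_of_deriv_nonneg (convex_Ioi 0) ?_ ?_ ?_
  · intro t ht
    obtain ⟨d, _, hd⟩ := key t ht
    exact hd.continuousAt.continuousWithinAt
  · intro t ht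
    rw [interior_Ioi] at ht
    obtain ⟨d, _, hd⟩ := key t ht
    exact hd.differentiableAt.differentiableWithinAt
  · intro t ht
    rw [interior_Ioi] at ht
    obtain ⟨d, hd0, hd⟩ := key t ht
    rw [hd.deriv]; exact hd0

theorem rauch (h : IsMetricOn G univ) (hsec : ∀ x u v, G x (curv G x u v v) u ≤ 0)
    (x v w : V) {s t : ℝ} (hs : 0 ≤ s) (hst : s ≤ t) :
    G (F.ex x (s • v)) (fderiv ℝ (F.ex x) (s • v) w) (fderiv ℝ (F.ex x) (s • v) w) ≤
      G (F.ex x (t • v)) (fderiv ℝ (F.ex x) (t • v) w) (fderiv ℝ (F.ex x) (t • v) w) := by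
  set r : ℝ → ℝ := fun t => G (F.jacC x v t) (F.jacD x v w t) (F.jacD x v w t) with hr
  have hcont : Continuous r := F.jac_ratio_cont h x v w
  have heq : ∀ t, 0 < t → F.jacF x v w t / t ^ 2 = r t := by
    intro t ht
    rw [F.jac_F_eq x v w t, mul_div_cancel_left₀ _ (pow_ne_zero 2 ht.ne')]
  have hmono : ∀ a b, 0 < a → a ≤ b → r a ≤ r b := by
    intro a b ha hab
    rw [← heq a ha, ← heq b (ha.trans_le hab)]
    exact F.jac_mono h hsec x v w (mem_Ioi.2 ha) (mem_Ioi.2 (ha.trans_le hab)) hab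
  change r s ≤ r t
  rcases hs.eq_or_lt with rfl | hs'
  · rcases hst.eq_or_lt with rfl | ht
    · exact le_rfl
    · refine le_of_tendsto ((hcont.tendsto 0).mono_left (nhdsWithin_le_nhds (s := Ioi 0))) ?_
      filter_upwards [Ioo_mem_nhdsGT ht] with a ha
      exact hmono a t ha.1 ha.2.le
  · exact hmono s t hs' hst

theorem expanding (h : IsMetricOn G univ) (hsec : ∀ x u v, G x (curv G x u v v) u ≤ 0)
    (x v w : V) : G x w w ≤ G (F.ex x v) (fderiv ℝ (F.ex x) v w) (fderiv ℝ (F.ex x) v w) := by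
  have h1 := F.rauch h hsec x v w (s := 0) (t := 1) le_rfl zero_le_one
  rw [zero_smul, one_smul, F.fderiv_ex_zero h, F.ex_zero h] at h1
  exact h1

end GFlow

end Vale.Agent.P219.CH
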