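import Vale.Agent.P219.CH.Hadamard
import Vale.Agent.P219.CH.Jacobi

/-!
Cartan-Hadamard: the smooth logarithm.
-/

open Set Filter Topology
open scoped ContDiff
open Vale.Agent.P255

noncomputable section

namespace Vale.Agent.P219.CH

variable {V : Type} [NormedAddCommGroup V] [NormedSpace ℝ V] [FiniteDimensional ℝ V]
variable {G : V → V →L[ℝ] V →L[ℝ] ℝ}

theorem exists_log (F : GFlow G) (h : IsMetricOn G univ)
    (hsec : ∀ x u v, G x (curv G x u v v) u ≤ 0) :
    ∃ lg : V → V → V, ContDiff ℝ ∞ (fun q : V × V => lg q.1 q.2) ∧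
      (∀ x y, F.ex x (lg x y) = y) ∧ ∀ x v, lg x (F.ex x v) = v :=
  exists_log_of_expanding F h (F.expanding h hsec)

end Vale.Agent.P219.CH
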