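import Vale.Agent.P219.Limit

/-!
The sharp Sobolev inequality for functions with values in `[0,1]` implies the isoperimetric
inequality.
-/

open MeasureTheory Set Filter Topology
open scoped ENNReal ContDiff

namespace Vale.Agent.P219.CH

variable {n : ℕ}

theorem pow_error (hn : 2 ≤ n) {t : ℝ} (h0 : 0 ≤ t) (_h1 : t ≤ 1) :
    t - t ^ ((n : ℝ) / (n - 1)) ≤ (n : ℝ) / (n - 1) * (t - t * t ^ (1 / (n : ℝ))) := by
  have hn2 : (2 : ℝ) ≤ n := by exact_mod_cast hn
  have hn1 : (0 : ℝ) < n - 1 := by linarith
  have hnp : (0 : ℝ) < n := by linarith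
  rcases h0.eq_or_lt with h | h
  · rw [← h, Real.zero_rpow (by positivity)]
    simp
  · set s : ℝ := (n : ℝ) / (n - 1) with hs
    have hs1 : 1 ≤ s := by rw [hs, le_div_iff₀ hn1]; linarith
    set u : ℝ := t ^ (1 / (n : ℝ)) with hu
    have hu0 : 0 < u := Real.rpow_pos_of_pos h _
    have h2 := one_add_mul_self_le_rpow_one_add (s := u - 1) (p := s) (by linarith) hs1
    have h3 : (1 + (u - 1)) ^ s = t ^ (1 / ((n : ℝ) - 1)) := by
      rw [add_sub_cancel, hu, ← Real.rpow_mul h.le]
      congr 1
      rw [hs]; field_simp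
    have h4 : t ^ s = t * t ^ (1 / ((n : ℝ) - 1)) := by
      nth_rewrite 2 [← Real.rpow_one t]
      rw [← Real.rpow_add h]
      congr 1
      rw [hs]; field_simp; ring
    rw [h3] at h2
    rw [h4]
    nlinarith

/-- The sharp Sobolev inequality implies the isoperimetric inequality (`κ = 0`). -/
theorem isop_of_sobolev (M : RiemMetric n) (e : Fin n → E n → E n) (he : TriangularFrame M e)
    (hn : 2 ≤ n)
    (hsob : ∀ F : E n → ℝ, ContDiff ℝ ∞ F → HasCompactSupport F → (∀ x, 0 ≤ F x) →
      (∀ x, F x ≤ 1) →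
      n * omega n ^ (1 / (n : ℝ)) *
          (∫ x, F x ^ ((n : ℝ) / (n - 1)) * volDensity M x) ^ (((n : ℝ) - 1) / n) ≤
        ∫ x, covNorm M x (fderiv ℝ F x) * volDensity M x) :
    IsoperimetricIneq M 0 := by
  have hn2 : (2 : ℝ) ≤ n := by exact_mod_cast hn
  have hn1 : (0 : ℝ) < n - 1 := by linarith
  have hnp : (0 : ℝ) < n := by linarith
  refine isop_of_functional M e he 0 hn (fun _ => n * ((n : ℝ) / (n - 1))) continuous_const ?_
  intro F hF hFc hF0 hF1 r hr hV
  have hsn : sn √(-0) r = r := by simp [sn]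
  set s : ℝ := (n : ℝ) / (n - 1) with hs
  have hs1 : 1 ≤ s := by rw [hs, le_div_iff₀ hn1]; linarith
  have hs0 : 0 < s := by linarith
  have hvc : Continuous (volDensity M) := (volDensity_smooth M e he).continuous
  have hvp : ∀ x, 0 < volDensity M x := volDensity_gt M e he
  -- model quantities
  have hVr : modelVol n 0 r = omega n * r ^ n := by
    have : ∫ t in (0 : ℝ)..r, sn √(-0) t ^ (n - 1) = r ^ n / n := by
      have h1 : ∀ t : ℝ, sn √(-0) t = t := fun t => by simp [sn]
      simp only [h1]
      rw [integral_pow]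
      have h2 : n - 1 + 1 = n := by omega
      rw [h2, zero_pow (by omega), sub_zero]
      congr 1
      have : ((n - 1 : ℕ) : ℝ) = (n : ℝ) - 1 := by
        rw [Nat.cast_sub (by omega)]; simp
      rw [this]; ring
    rw [modelVol, this]
    field_simp
  have hAr : modelArea n 0 r = n * omega n * r ^ (n - 1) := by
    rw [modelArea, hsn]
  -- integrals
  have hFr : Continuous fun x => F x ^ s :=
    hF.continuous.rpow_const fun x => Or.inr hs0.le
  have hFq : Continuous fun x => F x ^ (1 / (n : ℝ)) :=
    hF.continuous.rpow_const fun x => Or.inr (by positivity)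
  have i1 : Integrable fun x => F x * volDensity M x :=
    (hF.continuous.mul hvc).integrable_of_hasCompactSupport hFc.mul_right
  have i2 : Integrable fun x => F x ^ s * volDensity M x := by
    refine (hFr.mul hvc).integrable_of_hasCompactSupport (HasCompactSupport.mul_right ?_)
    refine hFc.mono' ?_
    intro x hx
    apply subset_tsupport
    intro h0
    apply hx
    simp only [h0]
    exact Real.zero_rpow hs0.ne'
  have i3 : Integrable fun x => (F x - F x * F x ^ (1 / (n : ℝ))) * volDensity M x := by
    refine ((hF.continuous.sub (hF.continuous.mul hFq)).mul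
      hvc).integrable_of_hasCompactSupport (HasCompactSupport.mul_right ?_)
    refine hFc.mono' ?_
    intro x hx
    apply subset_tsupport
    intro h0
    apply hx
    simp [h0]
  set W : ℝ := ∫ x, F x ^ s * volDensity M x with hW
  set A : ℝ := ∫ x, covNorm M x (fderiv ℝ F x) * volDensity M x with hA
  set D : ℝ := ∫ x, (F x - F x * F x ^ (1 / (n : ℝ))) * volDensity M x with hD
  set V : ℝ := ∫ x, F x * volDensity M x with hVd
  have hW0 : 0 ≤ W := integral_nonneg fun x =>
    mul_nonneg (Real.rpow_nonneg (hF0 x) _) (hvp x).le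
  have hWV : W ≤ V := by
    refine integral_mono i2 i1 fun x => mul_le_mul_of_nonneg_right ?_ (hvp x).le
    calc F x ^ s ≤ F x ^ (1 : ℝ) := by
          rcases (hF0 x).eq_or_lt with h | h
          · rw [← h, Real.zero_rpow hs0.ne', Real.zero_rpow one_ne_zero]
          · exact Real.rpow_le_rpow_of_exponent_ge h (hF1 x) hs1
      _ = F x := Real.rpow_one _
  have hVW : V - W ≤ s * D := by
    rw [hVd, hW, hD, ← integral_sub i1 i2, ← integral_const_mul]
    refine integral_mono (i1.sub i2) (i3.const_mul s) fun x => ?_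
    have h1 := mul_le_mul_of_nonneg_right (pow_error hn (hF0 x) (hF1 x)) (hvp x).le
    simp only
    rw [← hs] at h1
    nlinarith [h1]
  have hom := omega_pos n
  have hVe : V = omega n * r ^ n := by rw [hV, hVr]
  -- main estimate `n W ≤ r A`
  have hmain : n * W ≤ r * A := by
    have h1 := hsob F hF hFc hF0 hF1
    rw [← hW, ← hA] at h1
    have h2 : W ≤ W ^ (((n : ℝ) - 1) / n) * (omega n ^ (1 / (n : ℝ)) * r) := by
      rcases hW0.eq_or_lt with h | h
      · rw [← h, Real.zero_rpow (by positivity)]
        simp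
      · calc W = W ^ (((n : ℝ) - 1) / n) * W ^ (1 / (n : ℝ)) := by
              rw [← Real.rpow_add h]
              have : ((n : ℝ) - 1) / n + 1 / n = 1 := by field_simp; ring
              rw [this, Real.rpow_one]
          _ ≤ W ^ (((n : ℝ) - 1) / n) * (omega n * r ^ n) ^ (1 / (n : ℝ)) := by
              gcongr
              rw [← hVe]; exact hWV
          _ = W ^ (((n : ℝ) - 1) / n) * (omega n ^ (1 / (n : ℝ)) * r) := by
              congr 1
              rw [Real.mul_rpow hom.le (by positivity)]
              congr 1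
              rw [← Real.rpow_natCast r n, ← Real.rpow_mul hr.le]
              have : (n : ℝ) * (1 / n) = 1 := by field_simp
              rw [this, Real.rpow_one]
    calc n * W ≤ n * (W ^ (((n : ℝ) - 1) / n) * (omega n ^ (1 / (n : ℝ)) * r)) := by gcongr
      _ = r * (n * omega n ^ (1 / (n : ℝ)) * W ^ (((n : ℝ) - 1) / n)) := by ring
      _ ≤ r * A := by gcongr
  rw [hsn, hAr]
  have h5 : r * (n * omega n * r ^ (n - 1)) = n * V := by
    rw [hVe]
    have : r ^ n = r * r ^ (n - 1) := by
      rw [← pow_succ']; congr 1; omega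
    rw [this]; ring
  rw [h5]
  have h6 : (n : ℝ) * (V - W) ≤ n * (s * D) := by gcongr
  have h7 : (n : ℝ) * (n / (n - 1)) * D = n * (s * D) := by rw [hs]; ring
  rw [h7]
  linarith

end Vale.Agent.P219.CH
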