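import Vale.Agent.P219.CH.Log
import Vale.Agent.P219.CH.Bridge
import Vale.Agent.P219.CH.FrameMap

/-!
Exponential map, velocity and logarithm in an orthonormal frame.
-/

open Set Filter Topology
open scoped ContDiff
open Vale.Agent.P255

noncomputable section

namespace Vale.Agent.P219.CH

variable {n : ℕ} {M : RiemMetric n} {e : Fin n → E n → E n} (F : GFlow M.g)

/-- the exponential map in the frame -/
def exF (e : Fin n → E n → E n) (x v : E n) : E n := F.ex x (frA e x v)

/-- the velocity at time `t` in the frame -/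
def velF (e : Fin n → E n → E n) (t : ℝ) (x v : E n) : E n :=
  frB M e (exF F e x (t • v)) (F.vel t x (frA e x v))

theorem exF_smooth (he : TriangularFrame M e) :
    ContDiff ℝ ∞ fun q : E n × E n => exF F e q.1 q.2 := by
  unfold exF
  exact F.ex_smooth.comp (contDiff_fst.prodMk
    (((frA_smooth he).comp contDiff_fst).clm_apply contDiff_snd))

theorem velF_smooth (he : TriangularFrame M e) :
    ContDiff ℝ ∞ fun q : ℝ × E n × E n => velF F e q.1 q.2.1 q.2.2 := by
  have h1 : ContDiff ℝ ∞ fun q : ℝ × E n × E n => exF F e q.2.1 (q.1 • q.2.2) :=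
    (exF_smooth F he).comp ((contDiff_fst.comp contDiff_snd).prodMk
      (contDiff_fst.smul (contDiff_snd.comp contDiff_snd)))
  have h2 : ContDiff ℝ ∞ fun q : ℝ × E n × E n => frA e q.2.1 q.2.2 :=
    ((frA_smooth he).comp (contDiff_fst.comp contDiff_snd)).clm_apply
      (contDiff_snd.comp contDiff_snd)
  have h3 : ContDiff ℝ ∞ fun q : ℝ × E n × E n => F.vel q.1 q.2.1 (frA e q.2.1 q.2.2) :=
    F.vel_smooth.comp (contDiff_fst.prodMk ((contDiff_fst.comp contDiff_snd).prodMk h2))
  exact ((frB_smooth he).comp h1).clm_apply h3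

theorem frA_velF (he : TriangularFrame M e) (t : ℝ) (x v : E n) :
    frA e (exF F e x (t • v)) (velF F e t x v) = F.vel t x (frA e x v) :=
  frA_frB he _ _

theorem norm_velF (he : TriangularFrame M e) (t : ℝ) (x v : E n) : ‖velF F e t x v‖ = ‖v‖ := by
  have h : IsMetricOn M.g univ := isMetricOn M
  have h1 : ‖velF F e t x v‖ ^ 2 = ‖v‖ ^ 2 := by
    rw [velF, norm_frB_sq he, exF, map_smul, F.energy h, g_frA_self he]
  exact (pow_left_inj₀ (norm_nonneg _) (norm_nonneg _) two_ne_zero).1 h1

theorem exF_add (he : TriangularFrame M e) (s t : ℝ) (x v : E n) :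
    exF F e (exF F e x (s • v)) (t • velF F e s x v) = exF F e x ((s + t) • v) := by
  have h : IsMetricOn M.g univ := isMetricOn M
  have h1 : exF F e (exF F e x (s • v)) (t • velF F e s x v) =
      F.ex (exF F e x (s • v)) (t • frA e (exF F e x (s • v)) (velF F e s x v)) := by
    simp only [exF, map_smul]
  rw [h1, frA_velF F he]
  simp only [exF, map_smul]
  rw [F.ex_add h]

theorem velF_add (he : TriangularFrame M e) (s t : ℝ) (x v : E n) :
    velF F e (s + t) x v = velF F e t (exF F e x (s • v)) (velF F e s x v) := by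
  have h : IsMetricOn M.g univ := isMetricOn M
  have h1 : velF F e t (exF F e x (s • v)) (velF F e s x v) =
      frB M e (exF F e (exF F e x (s • v)) (t • velF F e s x v))
        (F.vel t (exF F e x (s • v)) (frA e (exF F e x (s • v)) (velF F e s x v))) := rfl
  rw [h1, frA_velF F he, exF_add F he]
  have h2 : velF F e (s + t) x v =
      frB M e (exF F e x ((s + t) • v)) (F.vel (s + t) x (frA e x v)) := rfl
  rw [h2, F.vel_add h]
  congr 2
  simp only [exF, map_smul]

theorem exF_zero (x : E n) : exF F e x 0 = x := by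
  have h : IsMetricOn M.g univ := isMetricOn M
  rw [exF, map_zero, F.ex_zero h]

theorem velF_zero (he : TriangularFrame M e) (x v : E n) : velF F e 0 x v = v := by
  have h1 : F.vel 0 x (frA e x v) = frA e x v := F.jac_vel_zero x _
  rw [velF, h1, zero_smul, exF_zero F, frB_frA he]

theorem hasDerivAt_exF (he : TriangularFrame M e) (t : ℝ) (x v : E n) :
    HasDerivAt (fun s : ℝ => exF F e x (s • v))
      (frA e (exF F e x (t • v)) (velF F e t x v)) t := by
  have h : IsMetricOn M.g univ := isMetricOn M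
  rw [frA_velF F he]
  have h1 : HasDerivAt (fun s : ℝ => F.ex x (s • frA e x v)) (F.vel t x (frA e x v)) t := by
    rw [← F.fderiv_ray h]
    have h2 : HasDerivAt (fun s : ℝ => s • frA e x v) (frA e x v) t := by
      simpa using (hasDerivAt_id t).smul_const (frA e x v)
    exact (F.jac_ex_diff x _).hasFDerivAt.comp_hasDerivAt t h2
  simpa only [exF, map_smul] using h1

/-- the differential of the exponential map, in the frames -/
def dexF (M : RiemMetric n) (F : GFlow M.g) (e : Fin n → E n → E n) (x v : E n) :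
    E n →L[ℝ] E n :=
  (frB M e (exF F e x v)).comp (fderiv ℝ (exF F e x) v)

theorem fderiv_exF (x v w : E n) :
    fderiv ℝ (exF F e x) v w = fderiv ℝ (F.ex x) (frA e x v) (frA e x w) := by
  have h1 : HasFDerivAt (exF F e x) ((fderiv ℝ (F.ex x) (frA e x v)).comp (frA e x)) v :=
    (F.jac_ex_diff x _).hasFDerivAt.comp v (frA e x).hasFDerivAt
  rw [h1.fderiv]
  rfl

theorem inner_dexF (he : TriangularFrame M e) (x v w z : E n) :
    inner ℝ (dexF M F e x v w) (dexF M F e x v z) =
      M.g (exF F e x v) (fderiv ℝ (exF F e x) v w) (fderiv ℝ (exF F e x) v z) := by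
  simp only [dexF, ContinuousLinearMap.comp_apply]
  rw [inner_frB he]

theorem gaussF (he : TriangularFrame M e) (x v z : E n) :
    inner ℝ (dexF M F e x v v) (dexF M F e x v z) = inner ℝ v z := by
  have h : IsMetricOn M.g univ := isMetricOn M
  rw [inner_dexF F he, fderiv_exF, fderiv_exF, exF, F.gauss h, g_frA he]

theorem norm_dexF_mono (he : TriangularFrame M e) (hs : SecLE M 0) (x v z : E n) {s t : ℝ}
    (h0 : 0 ≤ s) (hst : s ≤ t) :
    ‖dexF M F e x (s • v) z‖ ≤ ‖dexF M F e x (t • v) z‖ := by
  have h : IsMetricOn M.g univ := isMetricOn M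
  have h1 := F.rauch h (sec_nonpos M hs) x (frA e x v) (frA e x z) h0 hst
  have h2 : ∀ r : ℝ, ‖dexF M F e x (r • v) z‖ ^ 2 =
      M.g (F.ex x (r • frA e x v)) (fderiv ℝ (F.ex x) (r • frA e x v) (frA e x z))
        (fderiv ℝ (F.ex x) (r • frA e x v) (frA e x z)) := by
    intro r
    rw [← real_inner_self_eq_norm_sq, inner_dexF F he, fderiv_exF, exF, map_smul]
  rw [← h2, ← h2] at h1
  exact (pow_le_pow_iff_left₀ (norm_nonneg _) (norm_nonneg _) two_ne_zero).1 h1

theorem dexF_zero (he : TriangularFrame M e) (x z : E n) : dexF M F e x 0 z = z := by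
  have h : IsMetricOn M.g univ := isMetricOn M
  simp only [dexF, ContinuousLinearMap.comp_apply]
  rw [fderiv_exF, map_zero, F.fderiv_ex_zero h, exF_zero F, frB_frA he]

theorem exists_logF (he : TriangularFrame M e) (hs : SecLE M 0) :
    ∃ lg : E n → E n → E n, ContDiff ℝ ∞ (fun q : E n × E n => lg q.1 q.2) ∧
      (∀ x y, exF F e x (lg x y) = y) ∧ ∀ x v, lg x (exF F e x v) = v := by
  have h : IsMetricOn M.g univ := isMetricOn M
  obtain ⟨lg, h1, h2, h3⟩ := exists_log F h (sec_nonpos M hs)
  refine ⟨fun x y => frB M e x (lg x y), ?_, ?_, ?_⟩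
  · exact ((frB_smooth he).comp contDiff_fst).clm_apply h1
  · intro x y
    rw [exF, frA_frB he, h2]
  · intro x v
    simp only [exF, h3, frB_frA he]

end Vale.Agent.P219.CH
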