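import Vale.Agent.P219.CH.Sys
import Vale.Agent.P219.CH.Sobolev
import Vale.Agent.P219.CH.Flow
import Vale.Agent.P219.CH.Frame
import Vale.Agent.P219.TP.Sobolev

/-!
The abstract geometry `TP.Geo n` of a complete metric of nonpositive curvature on `ℝⁿ`, and the
isoperimetric inequality from a certificate.
-/

open Set Filter Topology MeasureTheory
open scoped ContDiff ENNReal
open Vale.Agent.P255

noncomputable section

namespace Vale.Agent.P219.CH

variable {n : ℕ} {M : RiemMetric n} {e : Fin n → E n → E n}

theorem velF_smul (F : GFlow M.g) (c t : ℝ) (x v : E n) :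
    velF F e t x (c • v) = c • velF F e (c * t) x v := by
  have h : IsMetricOn M.g univ := isMetricOn M
  have h1 : velF F e t x (c • v) =
      frB M e (exF F e x (t • c • v)) (F.vel t x (frA e x (c • v))) := rfl
  have h2 : velF F e (c * t) x v =
      frB M e (exF F e x ((c * t) • v)) (F.vel (c * t) x (frA e x v)) := rfl
  rw [h1, h2, map_smul, F.vel_smul h, map_smul, smul_smul, mul_comm t c]

theorem dexF_smooth (F : GFlow M.g) (he : TriangularFrame M e) :
    ContDiff ℝ ∞ fun q : E n × E n => dexF M F e q.1 q.2 := by
  unfold dexF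
  have h1 : ContDiff ℝ ∞ fun q : E n × E n => frB M e (exF F e q.1 q.2) :=
    (frB_smooth he).comp (exF_smooth F he)
  have h2 : ContDiff ℝ ∞ fun q : E n × E n => fderiv ℝ (exF F e q.1) q.2 := by
    refine ContDiff.fderiv (m := ∞) (n := ∞) (f := fun (q : E n × E n) v => exF F e q.1 v) ?_
      contDiff_snd (by simp)
    exact (exF_smooth F he).comp ((contDiff_fst.comp contDiff_fst).prodMk contDiff_snd)
  exact h1.clm_comp h2

/-- the abstract geometry of a metric with a global geodesic flow and curvature `≤ 0` -/
def toGeo (M : RiemMetric n) (e : Fin n → E n → E n) (he : TriangularFrame M e)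
    (hs : SecLE M 0) (F : GFlow M.g) : TP.Geo n where
  w := volDensity M
  A := frA e
  ex := exF F e
  V := velF F e
  lg := (exists_logF F he hs).choose
  T := dexF M F e
  w_smooth := volDensity_smooth M e he
  A_smooth := frA_smooth he
  ex_smooth := exF_smooth F he
  V_smooth := velF_smooth F he
  lg_smooth := (exists_logF F he hs).choose_spec.1
  T_smooth := dexF_smooth F he
  w_pos := volDensity_gt M e he
  w_det := frA_det he
  ex_zero := exF_zero F
  ex_lg := (exists_logF F he hs).choose_spec.2.1
  lg_ex := (exists_logF F he hs).choose_spec.2.2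
  V_zero := velF_zero F he
  norm_V := norm_velF F he
  V_smul := velF_smul F
  ex_flow := exF_add F he
  V_flow s t x v := (velF_add F he s t x v).symm
  ex_deriv := hasDerivAt_exF F he
  T_spec x v z := by
    simp only [dexF, ContinuousLinearMap.comp_apply]
    exact frA_frB he _ _
  gauss := gaussF F he
  mono x v z s _ h0 h1 := by
    have := norm_dexF_mono F he hs x v z h0 h1
    rwa [one_smul] at this

theorem norm_D_eq (he : TriangularFrame M e) (hs : SecLE M 0) (F : GFlow M.g) (h : E n → ℝ)
    (x : E n) : ‖(toGeo M e he hs F).D h x‖ = covNorm M x (fderiv ℝ h x) := by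
  rw [covNorm_eq he, EuclideanSpace.norm_eq]
  congr 1
  refine Finset.sum_congr rfl fun a _ => ?_
  rw [Real.norm_eq_abs, sq_abs]
  congr 1
  have h1 : inner ℝ ((toGeo M e he hs F).D h x) (basisVec a) =
      fderiv ℝ h x (frA e x (basisVec a)) := by
    unfold TP.Geo.D
    rw [InnerProductSpace.toDual_symm_apply]
    rfl
  have h2 : frA e x (basisVec a) = e a x := by
    rw [frA_apply]
    simp [basisVec]
  rw [h2] at h1
  rw [← h1]
  simp [basisVec, EuclideanSpace.inner_single_right]

theorem integral_vol (he : TriangularFrame M e) (hs : SecLE M 0) (F : GFlow M.g) (f : E n → ℝ) :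
    ∫ x, f x ∂(toGeo M e he hs F).vol = ∫ x, f x * volDensity M x := by
  have hc : Continuous (volDensity M) := (volDensity_smooth M e he).continuous
  have h1 : (toGeo M e he hs F).vol =
      volume.withDensity fun x => ENNReal.ofReal (volDensity M x) := rfl
  rw [h1, integral_withDensity_eq_integral_toReal_smul hc.measurable.ennreal_ofReal
    (Eventually.of_forall fun x => ENNReal.ofReal_lt_top)]
  refine integral_congr_ae (Eventually.of_forall fun x => ?_)
  simp only [ENNReal.toReal_ofReal (volDensity_gt M e he x).le, smul_eq_mul]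
  ring

theorem om_eq (n : ℕ) : TP.Geo.om n = omega n := rfl

/-- The isoperimetric inequality from a certificate. -/
theorem isop_of_cert (hn : 2 ≤ n) (C : TP.Cert n) (M : RiemMetric n) (hc : GeoComplete M.g)
    (hs : SecLE M 0) : IsoperimetricIneq M 0 := by
  obtain ⟨e, he⟩ := exists_triangularFrame M
  obtain ⟨F⟩ := exists_gflow (isMetricOn M) hc
  refine isop_of_sobolev M e he hn fun h hh hcs h0 h1 => ?_
  have key := TP.sobolev (toGeo M e he hs F) hn C (hh.of_le (by simp)) hcs
    fun x => ⟨h0 x, h1 x⟩
  have e1 : (toGeo M e he hs F).per h = ∫ x, covNorm M x (fderiv ℝ h x) * volDensity M x := by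
    unfold TP.Geo.per
    rw [integral_vol he hs F]
    simp only [norm_D_eq he hs F]
  have e2 : (toGeo M e he hs F).vp h =
      ∫ x, h x ^ ((n : ℝ) / (n - 1)) * volDensity M x := by
    unfold TP.Geo.vp
    rw [integral_vol he hs F]
  rw [e1, e2, om_eq] at key
  exact key

end Vale.Agent.P219.CH
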